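import Vale.Agent.P237.Centroid.Moments

/-!
# P237: among bodies of equal volume the ball has the smallest moment body

On the compact class of symmetric bodies between two balls with given volume and moment body
volume at most that of `K`, the second moment `∫ ‖x‖²` has a minimiser; symmetrising it can only
lower that moment, strictly unless it is invariant, so it is a ball.
-/

namespace Vale.Agent.P237.Centroid

open MeasureTheory Set Filter Topology Metric TopologicalSpace
open scoped Pointwise RealInnerProductSpace ENNReal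

variable {n : ℕ} {p : ℕ}

/-- The second moment. -/
noncomputable def secondMoment (C : Set (E n)) : ℝ := ∫ x in C, ‖x‖ ^ 2

/-- Symmetrisation lowers the second moment, and preserves it only for an invariant body. -/
theorem secondMoment_steiner {C : Set (E n)} {u : E n} (hC : Body C) (hu : ‖u‖ = 1)
    (hS : Body (steiner u C)) :
    secondMoment (steiner u C) ≤ secondMoment C ∧
      (secondMoment C ≤ secondMoment (steiner u C) → steiner u C = C) := by
  have hSc := hS.compact
  have c0 : Continuous fun x : E n => ‖x‖ ^ 2 := by fun_prop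
  obtain ⟨i1, e1⟩ := integral_fib hC.compact hu c0
  obtain ⟨i0, e0⟩ := integral_fib hSc hu c0
  choose c hc using fun y => exists_centre hC.compact hC.convex hu y
  set D : Perp u → ℝ := fun y => (∫ t in fib C u y, ‖perpCoord u (t, y)‖ ^ 2) -
    ∫ t in fib (steiner u C) u y, ‖perpCoord u (t, y)‖ ^ 2 with hD
  have hDeq : ∀ y, D y = c y ^ 2 * volume.real (fib (steiner u C) u y) := by
    intro y
    set J := fib (steiner u C) u y with hJ
    have hJc : IsCompact J := isCompact_fib hSc hu y
    have iJ : ∀ g : ℝ → ℝ, Continuous g → IntegrableOn g J := fun g hg =>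
      hg.continuousOn.integrableOn_compact hJc
    have h0 : ∫ t in J, t = 0 := by
      have := fib_reflect (fun t => (hc y t).2) (fun t : ℝ => t)
      rw [integral_neg] at this
      linarith
    simp only [hD, norm_sq_perpCoord hu]
    rw [← fib_translate (fun t => (hc y t).1) fun t => t ^ 2 + ‖y‖ ^ 2,
      ← integral_sub (iJ _ (by fun_prop)) (iJ _ (by fun_prop))]
    have e : (fun t : ℝ => (t + c y) ^ 2 + ‖y‖ ^ 2 - (t ^ 2 + ‖y‖ ^ 2)) =
        fun t => c y ^ 2 + 2 * c y * t := by funext t; ring
    rw [e, integral_add (iJ _ continuous_const) (iJ _ (by fun_prop)), integral_const_mul, h0,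
      setIntegral_const, smul_eq_mul]
    ring
  have hD0 : ∀ y, 0 ≤ D y := fun y => hDeq y ▸ mul_nonneg (sq_nonneg _) ENNReal.toReal_nonneg
  have hDi : Integrable D := i1.sub i0
  have hdiff : secondMoment C - secondMoment (steiner u C) = ∫ y, D y := by
    rw [secondMoment, secondMoment, e1, e0, ← integral_sub i1 i0]
  have hD1 : 0 ≤ ∫ y, D y := integral_nonneg hD0
  refine ⟨by linarith, fun hle => ?_⟩
  have hz : ∫ y, D y = 0 :=
    le_antisymm (by linarith) hD1
  have hae := (integral_eq_zero_iff_of_nonneg hD0 hDi).1 hz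
  have hint : ∀ F : E n → ℝ, Continuous F → ∫ x in steiner u C, F x = ∫ x in C, F x := by
    intro F hF
    rw [(integral_fib hSc hu hF).2, (integral_fib hC.compact hu hF).2]
    refine integral_congr_ae ?_
    filter_upwards [hae] with y hy
    simp only [Pi.zero_apply, hDeq] at hy
    rcases mul_eq_zero.1 hy with h | h
    · have hcy : c y = 0 := pow_eq_zero_iff two_ne_zero |>.1 h
      have : fib (steiner u C) u y = fib C u y := Set.ext fun t => by
        simpa [hcy] using (hc y t).1
      rw [this]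
    · have hfin : volume (fib (steiner u C) u y) ≠ ⊤ := (isCompact_fib hSc hu y).measure_lt_top.ne
      have h1 : volume (fib (steiner u C) u y) = 0 := by
        simpa [Measure.real, ENNReal.toReal_eq_zero_iff, hfin] using h
      have h2 : volume (fib C u y) = 0 := by
        have e : fib (steiner u C) u y = (fun t => t + c y) ⁻¹' fib C u y :=
          Set.ext fun t => (hc y t).1
        rwa [e, measure_preimage_add_right] at h1
      rw [setIntegral_measure_zero _ h1, setIntegral_measure_zero _ h2]
  have sub : ∀ A B : Set (E n), Body A → Body B →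
      (∀ F : E n → ℝ, Continuous F → ∫ x in A, F x = ∫ x in B, F x) → A ⊆ B := by
    intro A B hA hB h
    have hcB : IsClosed B := hB.compact.isClosed
    have hzero : ∫ x in A, infDist x B = 0 := by
      rw [h _ (continuous_infDist_pt B)]
      exact setIntegral_eq_zero_of_forall_eq_zero fun x hx => infDist_zero_of_mem hx
    have hA0 : interior A ⊆ B := by
      intro x hx
      by_contra hxB
      have hpos : 0 < infDist x B := (hcB.notMem_iff_infDist_pos hB.nonempty).1 hxB
      have hopen : IsOpen (interior A ∩ {z | 0 < infDist z B}) :=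
        isOpen_interior.inter (isOpen_lt continuous_const (continuous_infDist_pt B))
      have hae := (setIntegral_eq_zero_iff_of_nonneg_ae (ae_of_all _ fun _ => infDist_nonneg)
        ((continuous_infDist_pt B).continuousOn.integrableOn_compact hA.compact)).1 hzero
      have hnull : volume (interior A ∩ {z | 0 < infDist z B}) = 0 := by
        refine measure_mono_null (fun z hz => ?_)
          (ae_iff.1 ((ae_restrict_iff' hA.compact.isClosed.measurableSet).1 hae))
        simp only [mem_ofPred_eq, Pi.zero_apply, Classical.not_imp]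
        exact ⟨interior_subset hz.1, hz.2.ne'⟩
      exact (hopen.measure_pos volume ⟨x, hx, hpos⟩).ne' hnull
    rw [← hA.compact.isClosed.closure_eq,
      ← hA.convex.closure_interior_eq_closure_of_nonempty_interior hA.interior_nonempty]
    exact closure_minimal hA0 hcB
  exact (sub _ _ hS hC hint).antisymm (sub _ _ hC hS fun F hF => (hint F hF).symm)

/-- Symmetric bodies between two balls. -/
def Class (n : ℕ) (r R : ℝ) : Set (NonemptyCompacts (E n)) :=
  {K | Convex ℝ (K : Set (E n)) ∧ (∀ x ∈ (K : Set (E n)), -x ∈ (K : Set (E n))) ∧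
    closedBall 0 r ⊆ (K : Set (E n)) ∧ (K : Set (E n)) ⊆ closedBall 0 R}

lemma isCompact_Class (r R : ℝ) : IsCompact (Class n r R) := by
  have hmem : ∀ (x : E n) (K : NonemptyCompacts (E n)),
      x ∈ (K : Set (E n)) ↔ infDist x (K : Set (E n)) = 0 :=
    fun x K => K.isCompact.isClosed.mem_iff_infDist_zero K.nonempty
  have hlim : ∀ {k : ℕ → NonemptyCompacts (E n)} {K : NonemptyCompacts (E n)} {x : ℕ → E n} {y : E n},
      Tendsto k atTop (𝓝 K) → Tendsto x atTop (𝓝 y) → (∀ m, x m ∈ (k m : Set (E n))) →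
      y ∈ (K : Set (E n)) := by
    intro k K x y hk hx hmemk
    rw [hmem]
    have := ((lipschitz_infDist (α := E n)).continuous.tendsto (y, K)).comp (hx.prodMk_nhds hk)
    refine (tendsto_nhds_unique (this.congr fun m => ?_) tendsto_const_nhds)
    exact (hmem _ _).1 (hmemk m)
  have happ : ∀ {k : ℕ → NonemptyCompacts (E n)} {K : NonemptyCompacts (E n)} {y : E n},
      Tendsto k atTop (𝓝 K) → y ∈ (K : Set (E n)) →
      ∃ x : ℕ → E n, (∀ m, x m ∈ (k m : Set (E n))) ∧ Tendsto x atTop (𝓝 y) := by
    intro k K y hk hy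
    choose x hx hxd using fun m => (k m).isCompact.exists_infDist_eq_dist (k m).nonempty y
    refine ⟨x, hx, tendsto_iff_dist_tendsto_zero.2 ?_⟩
    have := ((lipschitz_infDist_set (α := E n) y).continuous.tendsto K).comp hk
    rw [(hmem y K).1 hy] at this
    exact this.congr fun m => by rw [Function.comp_apply, hxd m, dist_comm]
  refine (NonemptyCompacts.isCompact_subsets_of_isCompact
    (isCompact_closedBall (0 : E n) R)).of_isClosed_subset ?_ fun K hK => hK.2.2.2
  refine IsSeqClosed.isClosed fun k K hk hlimk => ⟨?_, ?_, ?_, ?_⟩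
  · intro q hq q' hq' a b ha hb hab
    obtain ⟨x, hx, hx'⟩ := happ hlimk hq
    obtain ⟨z, hz, hz'⟩ := happ hlimk hq'
    exact hlim hlimk ((hx'.const_smul a).add (hz'.const_smul b))
      fun m => (hk m).1 (hx m) (hz m) ha hb hab
  · intro q hq
    obtain ⟨x, hx, hx'⟩ := happ hlimk hq
    exact hlim hlimk hx'.neg fun m => (hk m).2.1 _ (hx m)
  · exact fun q hq => hlim hlimk tendsto_const_nhds fun m => (hk m).2.2.1 hq
  · intro q hq
    obtain ⟨x, hx, hx'⟩ := happ hlimk hq
    exact isClosed_closedBall.mem_of_tendsto hx' (Eventually.of_forall fun m => (hk m).2.2.2 (hx m))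

lemma Class.body {r R : ℝ} (hr : 0 < r) {K : NonemptyCompacts (E n)} (h : K ∈ Class n r R) :
    Body (K : Set (E n)) :=
  ⟨h.1, K.isCompact, ⟨0, interior_mono h.2.2.1 (by
    rw [interior_closedBall _ hr.ne']; exact mem_ball_self hr)⟩⟩

/-- Hausdorff close bodies are sandwiched by dilations. -/
lemma subset_smul_of_dist_le {r R : ℝ} (hr : 0 < r) {K L : NonemptyCompacts (E n)}
    (hK : K ∈ Class n r R) {d : ℝ} (hd : dist L K ≤ d) :
    (L : Set (E n)) ⊆ (1 + d / r) • (K : Set (E n)) := by
  intro x hx
  have hd0 : 0 ≤ d := dist_nonneg.trans hd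
  obtain ⟨y, hy, hxy⟩ := K.isCompact.exists_infDist_eq_dist K.nonempty x
  have hdist : dist x y ≤ d := hxy ▸ (infDist_le_hausdorffDist_of_mem hx
    (hausdorffEDist_ne_top_of_nonempty_of_bounded L.nonempty K.nonempty L.isCompact.isBounded
      K.isCompact.isBounded)).trans ((NonemptyCompacts.dist_eq (x := L) (y := K)).symm.trans_le hd)
  rw [hK.1.add_smul zero_le_one (div_nonneg hd0 hr.le), one_smul]
  refine ⟨y, hy, x - y, ?_, by simp⟩
  refine Set.smul_set_mono hK.2.2.1 ?_
  rw [_root_.smul_closedBall _ _ hr.le, smul_zero, Real.norm_of_nonneg (div_nonneg hd0 hr.le),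
    div_mul_cancel₀ _ hr.ne', mem_closedBall_zero_iff, ← dist_eq_norm]
  exact hdist

/-- A functional controlled under dilation sandwiches is continuous on the class. -/
lemma continuousOn_of_sandwich {r R : ℝ} (hr : 0 < r) (F : Set (E n) → ℝ) (N : ℕ)
    (h : ∀ K L : Set (E n), Body K → Body L → ∀ c : ℝ, 1 ≤ c → L ⊆ c • K → K ⊆ c • L →
      F L ≤ c ^ N * F K) :
    ContinuousOn (fun K : NonemptyCompacts (E n) => F (K : Set (E n))) (Class n r R) := by
  intro K hK
  set q : NonemptyCompacts (E n) → ℝ := fun L => (1 + dist L K / r) ^ N with hq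
  have key : ∀ L ∈ Class n r R, F L ≤ q L * F K ∧ F K ≤ q L * F L := by
    intro L hL
    have h1 := subset_smul_of_dist_le hr hK (L := L) (d := dist L K) le_rfl
    have h2 := subset_smul_of_dist_le hr hL (L := K) (d := dist L K) (dist_comm K L).le
    have h3 : 1 ≤ 1 + dist L K / r := le_add_of_nonneg_right (by positivity)
    exact ⟨h _ _ (Class.body hr hK) (Class.body hr hL) _ h3 h1 h2,
      h _ _ (Class.body hr hL) (Class.body hr hK) _ h3 h2 h1⟩
  have hd : Tendsto q (𝓝[Class n r R] K) (𝓝 1) := by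
    have : Continuous q := by fun_prop
    simpa [hq] using (this.tendsto K).mono_left nhdsWithin_le_nhds
  refine tendsto_of_tendsto_of_tendsto_of_le_of_le'
    (g := fun L => F (K : Set (E n)) / q L) (h := fun L => q L * F (K : Set (E n))) ?_ ?_ ?_ ?_
  · simpa [Pi.div_def] using (tendsto_const_nhds (x := F (K : Set (E n)))).div hd one_ne_zero
  · simpa using hd.mul_const (F (K : Set (E n)))
  · filter_upwards [self_mem_nhdsWithin] with L hL
    rw [div_le_iff₀ (by positivity), mul_comm]
    exact (key L hL).2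
  · filter_upwards [self_mem_nhdsWithin] with L hL
    exact (key L hL).1

/-- Integrals of nonnegative homogeneous functions under a dilation sandwich. -/
lemma integral_le_of_subset_smul {K L : Set (E n)} (hK : Body K) {c : ℝ} (hc : 1 ≤ c)
    (hLK : L ⊆ c • K) {G : E n → ℝ} (hG : Continuous G) (hG0 : ∀ x, 0 ≤ G x) {k : ℕ}
    (hhom : ∀ x, G (c • x) = c ^ k * G x) :
    ∫ x in L, G x ≤ c ^ (n + k) * ∫ x in K, G x := by
  have hc0 : 0 < c := by linarith
  refine (setIntegral_mono_set (hG.continuousOn.integrableOn_compact (hK.compact.smul c))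
    (ae_of_all _ hG0) hLK.eventuallyLE).trans_eq ?_
  have h := Measure.setIntegral_comp_smul_of_pos (volume : Measure (E n)) G K hc0
  simp only [hhom, integral_const_mul, finrank_euclideanSpace_fin, smul_eq_mul] at h
  rw [pow_add, mul_assoc, h, ← mul_assoc, mul_inv_cancel₀ (pow_pos hc0 n).ne', one_mul]

lemma vol_sandwich (K L : Set (E n)) (hK : Body K) (_ : Body L) (c : ℝ) (hc : 1 ≤ c)
    (hLK : L ⊆ c • K) (_ : K ⊆ c • L) : vol L ≤ c ^ n * vol K := by
  refine (vol_mono (hK.compact.smul c) hLK).trans_eq ?_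
  rw [vol_smul, abs_of_pos (by linarith)]

lemma secondMoment_sandwich (K L : Set (E n)) (hK : Body K) (_ : Body L) (c : ℝ) (hc : 1 ≤ c)
    (hLK : L ⊆ c • K) (_ : K ⊆ c • L) : secondMoment L ≤ c ^ (n + 2) * secondMoment K :=
  integral_le_of_subset_smul hK hc hLK (by fun_prop) (fun x => by positivity) fun x => by
    rw [norm_smul, Real.norm_of_nonneg (by linarith), mul_pow]

lemma momBody_sandwich (hp : 1 ≤ p) (K L : Set (E n)) (hK : Body K) (hL : Body L) (c : ℝ)
    (hc : 1 ≤ c) (hLK : L ⊆ c • K) (hKL : K ⊆ c • L) :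
    vol (momBody L p) ≤ c ^ ((2 * n + p) * n) * vol (momBody K p) := by
  have hc0 : 0 < c := by linarith
  have hmom : ∀ φ : E n →L[ℝ] ℝ, mom L p φ ≤ c ^ (2 * n + p) * mom K p φ := by
    intro φ
    refine mom_le hp (mul_nonneg (by positivity) (mom_nonneg K p φ)) ?_
    rw [mul_pow, mom_pow hp, div_le_iff₀ hL.vol_pos]
    have h1 := integral_le_of_subset_smul hK hc hLK (G := fun x => |φ x| ^ p) (k := p) (by fun_prop)
      (fun x => by positivity) (fun x => by simp [abs_mul, mul_pow, abs_of_pos hc0])
    have h2 := vol_sandwich L K hL hK c hc hKL hLK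
    set I := ∫ x in K, |φ x| ^ p
    have hI : 0 ≤ I := integral_nonneg fun x => by positivity
    have h3 : c ^ (2 * n + p) ≤ (c ^ (2 * n + p)) ^ p :=
      le_self_pow₀ (one_le_pow₀ hc) (by omega)
    refine h1.trans ?_
    calc c ^ (n + p) * I = c ^ (n + p) * (I / vol K) * vol K := by
          rw [mul_assoc, div_mul_cancel₀ _ hK.vol_pos.ne']
      _ ≤ c ^ (n + p) * (I / vol K) * (c ^ n * vol L) :=
          mul_le_mul_of_nonneg_left h2 (mul_nonneg (by positivity) (div_nonneg hI (vol_nonneg K)))
      _ = c ^ (2 * n + p) * (I / vol K) * vol L := by ring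
      _ ≤ _ := mul_le_mul_of_nonneg_right
          (mul_le_mul_of_nonneg_right h3 (div_nonneg hI (vol_nonneg K))) (vol_nonneg L)
  have hsub : momBody L p ⊆ (c ^ (2 * n + p)) • momBody K p := by
    intro z hz
    refine ⟨(c ^ (2 * n + p))⁻¹ • z, fun φ => ?_, smul_inv_smul₀ (by positivity) z⟩
    rw [map_smul, smul_eq_mul, inv_mul_le_iff₀ (by positivity)]
    exact (hz φ).trans (hmom φ)
  refine (vol_mono ((isCompact_momBody hK.compact hp).smul _) hsub).trans_eq ?_
  rw [vol_smul, abs_of_pos (by positivity), ← pow_mul]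

/-- Some ball of the same volume has a moment body that is not larger. -/
theorem exists_ball_momBody_le (hn : 1 ≤ n) (hp : 1 ≤ p) {K : Set (E n)} (hK : SymBody K) :
    ∃ ρ : ℝ, 0 < ρ ∧ vol (closedBall (0 : E n) ρ) = vol K ∧
      vol (momBody (closedBall (0 : E n) ρ) p) ≤ vol (momBody K p) := by
  obtain ⟨R, hR⟩ := hK.compact.isBounded.exists_norm_le
  have h0 : (0 : E n) ∈ interior K := by
    obtain ⟨x, hx⟩ := hK.interior_nonempty
    have hKs : (fun z : E n => -z) ⁻¹' K = K := Set.ext fun z =>
      ⟨fun h => by simpa using hK.neg_mem _ h, fun h => hK.neg_mem z h⟩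
    have hx' : -x ∈ interior K := by
      have := ((Homeomorph.neg (E n)).preimage_interior K)
      rw [show (Homeomorph.neg (E n) : E n → E n) = fun z => -z from rfl, hKs] at this
      rw [← this]
      simpa using hx
    have := hK.convex.interior hx hx' (show (0 : ℝ) ≤ 1 / 2 by norm_num)
      (show (0 : ℝ) ≤ 1 / 2 by norm_num) (by norm_num)
    simpa using this
  obtain ⟨r, hr, hball⟩ := Metric.nhds_basis_closedBall.mem_iff.1 (mem_interior_iff_mem_nhds.1 h0)
  let K₀ : NonemptyCompacts (E n) := ⟨⟨K, hK.compact⟩, hK.toBody.nonempty⟩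
  set T : Set (NonemptyCompacts (E n)) := Class n r R ∩
    (fun L : NonemptyCompacts (E n) => (vol (L : Set (E n)), vol (momBody (L : Set (E n)) p))) ⁻¹'
      ({vol K} ×ˢ Iic (vol (momBody K p))) with hT
  have hS := isCompact_Class (n := n) r R
  have cv := continuousOn_of_sandwich (R := R) hr (fun C : Set (E n) => vol C) n vol_sandwich
  have cm := continuousOn_of_sandwich (R := R) hr (fun C : Set (E n) => vol (momBody C p))
    ((2 * n + p) * n) (momBody_sandwich hp)
  have cs := continuousOn_of_sandwich (R := R) hr (fun C : Set (E n) => secondMoment C) (n + 2)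
    secondMoment_sandwich
  have hTc : IsCompact T := hS.of_isClosed_subset
    ((cv.prodMk cm).preimage_isClosed_of_isClosed hS.isClosed
      (isClosed_singleton.prod isClosed_Iic)) inter_subset_left
  have hK0 : K₀ ∈ T :=
    ⟨⟨hK.convex, hK.neg_mem, hball, fun x hx => mem_closedBall_zero_iff.2 (hR x hx)⟩,
      ⟨rfl, show vol (momBody K p) ≤ vol (momBody K p) from le_rfl⟩⟩
  obtain ⟨M, ⟨hMS, hMv, hMm⟩, hmin⟩ :=
    hTc.exists_isMinOn ⟨K₀, hK0⟩ (cs.mono inter_subset_left)
  have hMb := Class.body hr hMS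
  have inv : ∀ u : E n, ‖u‖ = 1 → steiner u (M : Set (E n)) = (M : Set (E n)) := by
    intro u hu
    have hsub := closedBall_subset_steiner hu hMS.2.2.1
    let M' : NonemptyCompacts (E n) := ⟨⟨steiner u (M : Set (E n)), isCompact_steiner M.isCompact u⟩,
      ⟨0, hsub (mem_closedBall_self hr.le)⟩⟩
    have hM'S : M' ∈ Class n r R := ⟨convex_steiner hMS.1 u,
      fun x hx => neg_mem_steiner hMS.2.1 hx, hsub, steiner_subset_closedBall hu hMS.2.2.2⟩
    have hM'T : M' ∈ T := ⟨hM'S,
      ⟨show vol (steiner u (M : Set (E n))) = vol K from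
          (vol_steiner M.isCompact hMS.1 hu).trans hMv,
        show vol (momBody (steiner u (M : Set (E n))) p) ≤ vol (momBody K p) from
          (vol_momBody_steiner_le hp hMb hu).trans hMm⟩⟩
    exact (secondMoment_steiner hMb hu (Class.body hr hM'S)).2 (hmin hM'T)
  have hrefl : ∀ u : E n, ‖u‖ = 1 → ∀ x ∈ (M : Set (E n)), refl u x ∈ (M : Set (E n)) := by
    intro u hu x hx
    obtain ⟨y, hy⟩ := perpCoord_surj hu x
    obtain ⟨c, hc⟩ := exists_centre M.isCompact hMS.1 hu y
    have h1 : ⟪x, u⟫ ∈ fib (steiner u (M : Set (E n))) u y := by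
      rw [inv u hu]
      show perpCoord u _ ∈ (M : Set (E n))
      rw [← hy]; exact hx
    have h2 := (hc _).2.1 h1
    rw [inv u hu] at h2
    have h3 : refl u x = perpCoord u (-⟪x, u⟫, y) := by
      conv_lhs => rw [refl, hy, inner_perpCoord hu]
      simp only [perpCoord_def]
      module
    rw [h3]; exact h2
  obtain ⟨x₀, hx₀, hmax⟩ := M.isCompact.exists_isMaxOn M.nonempty continuous_norm.continuousOn
  set ρ := ‖x₀‖ with hρ
  have hρ0 : 0 < ρ := by
    have : Nonempty (Fin n) := ⟨⟨0, hn⟩⟩
    obtain ⟨e, he⟩ := (NormedSpace.sphere_nonempty (x := (0 : E n))).2 hr.le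
    have : r ≤ ρ := by
      rw [← mem_sphere_zero_iff_norm.1 he]
      exact hmax (hMS.2.2.1 (sphere_subset_closedBall he))
    linarith
  have hrot : ∀ z : E n, ‖z‖ = ρ → z ∈ (M : Set (E n)) := by
    intro z hz
    rcases eq_or_ne x₀ z with h | h
    · exact h ▸ hx₀
    set v := x₀ - z with hv
    have hv0 : ‖v‖ ≠ 0 := norm_ne_zero_iff.2 (sub_ne_zero.2 h)
    have hu : ‖‖v‖⁻¹ • v‖ = 1 := by rw [norm_smul, norm_inv, norm_norm, inv_mul_cancel₀ hv0]
    have hkey : 2 * ⟪x₀, v⟫ = ‖v‖ ^ 2 := by
      rw [hv, norm_sub_sq_real, inner_sub_right, real_inner_self_eq_norm_sq, hz, ← hρ]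
      ring
    have hz' : refl (‖v‖⁻¹ • v) x₀ = z := by
      rw [refl, real_inner_smul_right, smul_smul,
        show 2 * (‖v‖⁻¹ * ⟪x₀, v⟫) * ‖v‖⁻¹ = 1 by
          field_simp; linarith [hkey], one_smul, hv, sub_sub_cancel]
    exact hz' ▸ hrefl _ hu x₀ hx₀
  have hMball : (M : Set (E n)) = closedBall 0 ρ := by
    refine Subset.antisymm (fun x hx => mem_closedBall_zero_iff.2 (hmax hx)) fun z hz => ?_
    rw [mem_closedBall_zero_iff] at hz
    rcases eq_or_ne z 0 with rfl | h
    · exact hMS.2.2.1 (mem_closedBall_self hr.le)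
    have hz0 : 0 < ‖z‖ := norm_pos_iff.2 h
    have hw : (ρ / ‖z‖) • z ∈ (M : Set (E n)) := hrot _ (by
      rw [norm_smul, Real.norm_of_nonneg (by positivity), div_mul_cancel₀ _ hz0.ne'])
    have h01 : (0 : E n) ∈ (M : Set (E n)) := hMS.2.2.1 (mem_closedBall_self hr.le)
    have hle : ‖z‖ / ρ ≤ 1 := (div_le_one hρ0).2 hz
    have := hMS.1 hw h01 (show 0 ≤ ‖z‖ / ρ by positivity) (sub_nonneg.2 hle) (by ring)
    rw [smul_zero, add_zero, smul_smul, div_mul_div_comm, mul_comm, div_self (by positivity),
      one_smul] at this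
    exact this
  exact ⟨ρ, hρ0, hMball ▸ hMv, hMball ▸ hMm⟩

end Vale.Agent.P237.Centroid
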