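import Vale.Agent.P237.Centroid.NormBody

/-!
# P237: hinge Orlicz centroid bodies and their behaviour under Steiner symmetrisation

`hinge C a w φ` is the Luxemburg norm of `φ` on `C` for the Orlicz function `s ↦ (|s| - a)₊ / w`:
the least `l` with `∫_C (|φ| - a l)₊ ≤ w l |C|`. The hinge being subadditive, the coupling of two
functionals fibre by fibre needs no convex splitting, and the body below `hinge C a w` of a Steiner
symmetrisation lies in the symmetrisation of that body.
-/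

namespace Vale.Agent.P237.Centroid

open MeasureTheory Set Filter Topology Metric
open scoped Pointwise RealInnerProductSpace ENNReal NNReal

variable {n : ℕ} {C : Set (E n)} {u : E n} {a w : ℝ}

/-- The hinge integral. -/
noncomputable def hingeInt (C : Set (E n)) (b : ℝ) (φ : E n →L[ℝ] ℝ) : ℝ :=
  ∫ x in C, max (|φ x| - b) 0

/-- The hinge Orlicz norm of `φ` over `C`. -/
noncomputable def hinge (C : Set (E n)) (a w : ℝ) (φ : E n →L[ℝ] ℝ) : ℝ :=
  sInf {l : ℝ | 0 < l ∧ hingeInt C (a * l) φ ≤ w * l * vol C}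

/-- The convex body below the hinge norm: the Orlicz centroid body. -/
def hingeBody (C : Set (E n)) (a w : ℝ) : Set (E n) :=
  {z | ∀ φ : E n →L[ℝ] ℝ, φ z ≤ hinge C a w φ}

lemma integrableOn_hinge (hC : IsCompact C) (b : ℝ) (φ : E n →L[ℝ] ℝ) :
    IntegrableOn (fun x => max (|φ x| - b) 0) C :=
  (by fun_prop : Continuous fun x => max (|φ x| - b) 0).continuousOn.integrableOn_compact hC

lemma hingeInt_anti (hC : IsCompact C) {b b' : ℝ} (h : b ≤ b') (φ : E n →L[ℝ] ℝ) :
    hingeInt C b' φ ≤ hingeInt C b φ :=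
  setIntegral_mono (integrableOn_hinge hC b' φ) (integrableOn_hinge hC b φ) fun _ =>
    max_le_max (sub_le_sub_left h _) le_rfl

lemma hingeInt_le_abs (hC : IsCompact C) {b : ℝ} (hb : 0 ≤ b) (φ : E n →L[ℝ] ℝ) :
    hingeInt C b φ ≤ ∫ x in C, |φ x| :=
  setIntegral_mono (integrableOn_hinge hC b φ)
    ((by fun_prop : Continuous fun x => |φ x|).continuousOn.integrableOn_compact hC)
    fun x => max_le (by linarith [abs_nonneg (φ x)]) (abs_nonneg _)

lemma hinge_nonneg (C : Set (E n)) (a w : ℝ) (φ : E n →L[ℝ] ℝ) : 0 ≤ hinge C a w φ :=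
  Real.sInf_nonneg fun _ h => h.1.le

lemma hinge_le {l : ℝ} (hl : 0 < l) {φ : E n →L[ℝ] ℝ} (h : hingeInt C (a * l) φ ≤ w * l * vol C) :
    hinge C a w φ ≤ l :=
  csInf_le ⟨0, fun _ h => h.1.le⟩ ⟨hl, h⟩

lemma hinge_feasible (ha : 0 ≤ a) (hw : 0 < w) (hC : Body C) {φ : E n →L[ℝ] ℝ} {l : ℝ}
    (h : hinge C a w φ < l) : hingeInt C (a * l) φ ≤ w * l * vol C := by
  have hV := hC.vol_pos
  have hne : {l : ℝ | 0 < l ∧ hingeInt C (a * l) φ ≤ w * l * vol C}.Nonempty := by
    have hI : 0 ≤ ∫ x in C, |φ x| := integral_nonneg fun x => abs_nonneg _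
    refine ⟨(∫ x in C, |φ x|) / (w * vol C) + 1, by positivity, ?_⟩
    refine (hingeInt_le_abs hC.compact (by positivity) φ).trans ?_
    have e : w * ((∫ x in C, |φ x|) / (w * vol C) + 1) * vol C = (∫ x in C, |φ x|) + w * vol C := by
      field_simp
    rw [e]
    linarith [mul_pos hw hV]
  obtain ⟨l', ⟨-, h'⟩, hlt⟩ := exists_lt_of_csInf_lt hne h
  calc hingeInt C (a * l) φ ≤ hingeInt C (a * l') φ :=
        hingeInt_anti hC.compact (mul_le_mul_of_nonneg_left hlt.le ha) φ
    _ ≤ w * l' * vol C := h'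
    _ ≤ w * l * vol C := by gcongr

lemma hinge_le_norm (ha : 0 ≤ a) (hw : 0 < w) (hC : Body C) {R : ℝ} (hR : ∀ x ∈ C, ‖x‖ ≤ R)
    (hR0 : 0 ≤ R) (φ : E n →L[ℝ] ℝ) : hinge C a w φ ≤ ‖φ‖ * R / w := by
  refine le_of_forall_gt_imp_ge_of_dense fun l hl => ?_
  have hl0 : 0 < l := lt_of_le_of_lt (by positivity) hl
  refine hinge_le hl0 ((hingeInt_le_abs hC.compact (by positivity) φ).trans ?_)
  refine ((le_abs_self _).trans_eq (Real.norm_eq_abs _).symm).trans
    ((norm_setIntegral_le_of_norm_le_const (C := ‖φ‖ * R) hC.compact.measure_lt_top fun x hx => ?_).trans ?_)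
  · rw [Real.norm_eq_abs, abs_abs, ← Real.norm_eq_abs]
    exact (φ.le_opNorm x).trans (mul_le_mul_of_nonneg_left (hR x hx) (norm_nonneg _))
  · rw [div_lt_iff₀ hw] at hl
    exact mul_le_mul_of_nonneg_right (by linarith) (vol_nonneg C)

lemma hinge_smul_le (ha : 0 ≤ a) (hw : 0 < w) (hC : Body C) (s : ℝ) (φ : E n →L[ℝ] ℝ) :
    hinge C a w (s • φ) ≤ |s| * hinge C a w φ := by
  rcases eq_or_ne s 0 with rfl | hs
  · simp only [abs_zero, zero_mul, zero_smul]
    refine le_of_forall_gt_imp_ge_of_dense fun l hl => hinge_le hl ?_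
    have : hingeInt C (a * l) (0 : E n →L[ℝ] ℝ) = 0 := by
      have hal : 0 ≤ a * l := mul_nonneg ha hl.le
      simp [hingeInt, hal]
    rw [this]
    have := vol_nonneg C
    positivity
  have hs0 : 0 < |s| := abs_pos.2 hs
  refine le_of_forall_gt_imp_ge_of_dense fun l hl => ?_
  have hl' : hinge C a w φ < l / |s| := by rw [lt_div_iff₀ hs0, mul_comm]; exact hl
  have hl0 : 0 < l := lt_of_le_of_lt (mul_nonneg hs0.le (hinge_nonneg C a w φ)) hl
  refine hinge_le hl0 ?_
  have e : hingeInt C (a * l) (s • φ) = |s| * hingeInt C (a * (l / |s|)) φ := by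
    rw [hingeInt, hingeInt, ← integral_const_mul]
    refine integral_congr_ae (ae_of_all _ fun x => ?_)
    simp only [smul_apply, smul_eq_mul, abs_mul]
    rw [mul_max_of_nonneg _ _ hs0.le, mul_zero, mul_sub]
    congr 2
    field_simp
  rw [e]
  refine (mul_le_mul_of_nonneg_left (hinge_feasible ha hw hC hl') hs0.le).trans_eq ?_
  field_simp

lemma hinge_smul (ha : 0 ≤ a) (hw : 0 < w) (hC : Body C) (s : ℝ) (φ : E n →L[ℝ] ℝ) :
    hinge C a w (s • φ) = |s| * hinge C a w φ := by
  refine le_antisymm (hinge_smul_le ha hw hC s φ) ?_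
  rcases eq_or_ne s 0 with rfl | hs
  · simp [hinge_nonneg]
  have h := hinge_smul_le ha hw hC s⁻¹ (s • φ)
  rw [inv_smul_smul₀ hs, abs_inv, le_inv_mul_iff₀ (abs_pos.2 hs)] at h
  exact h

lemma hinge_add_le (ha : 0 ≤ a) (hw : 0 < w) (hC : Body C) (φ ψ : E n →L[ℝ] ℝ) :
    hinge C a w (φ + ψ) ≤ hinge C a w φ + hinge C a w ψ := by
  refine le_of_forall_pos_le_add fun η hη => ?_
  set α := hinge C a w φ + η / 2 with hα
  set β := hinge C a w ψ + η / 2 with hβ
  have hαβ : 0 < α + β := by have := hinge_nonneg C a w φ; have := hinge_nonneg C a w ψ; linarith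
  suffices h : hinge C a w (φ + ψ) ≤ α + β by linarith
  refine hinge_le hαβ ?_
  have h1 := hinge_feasible ha hw hC (φ := φ) (l := α) (by linarith)
  have h2 := hinge_feasible ha hw hC (φ := ψ) (l := β) (by linarith)
  calc hingeInt C (a * (α + β)) (φ + ψ)
      ≤ ∫ x in C, (max (|φ x| - a * α) 0 + max (|ψ x| - a * β) 0) := by
        refine setIntegral_mono (integrableOn_hinge hC.compact _ _)
          ((integrableOn_hinge hC.compact _ φ).add (integrableOn_hinge hC.compact _ ψ)) fun x => ?_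
        simp only [add_apply]
        refine max_le ?_ (add_nonneg (le_max_right _ _) (le_max_right _ _))
        linarith [le_max_left (|φ x| - a * α) 0, le_max_left (|ψ x| - a * β) 0,
          abs_add_le (φ x) (ψ x)]
    _ = hingeInt C (a * α) φ + hingeInt C (a * β) ψ :=
        integral_add (integrableOn_hinge hC.compact _ φ) (integrableOn_hinge hC.compact _ ψ)
    _ ≤ w * (α + β) * vol C := by linarith

lemma continuous_hinge (ha : 0 ≤ a) (hw : 0 < w) (hC : Body C) :
    Continuous fun φ : E n →L[ℝ] ℝ => hinge C a w φ := by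
  obtain ⟨R, hR⟩ := hC.compact.isBounded.exists_norm_le
  refine (LipschitzWith.of_le_add_mul (max R 0 / w).toNNReal fun φ ψ => ?_).continuous
  have h := hinge_add_le ha hw hC (φ - ψ) ψ
  rw [sub_add_cancel] at h
  have h' := hinge_le_norm ha hw hC (fun x hx => (hR x hx).trans (le_max_left R 0))
    (le_max_right _ _) (φ - ψ)
  rw [Real.coe_toNNReal _ (by positivity), dist_eq_norm]
  linarith [show ‖φ - ψ‖ * max R 0 / w = max R 0 / w * ‖φ - ψ‖ by ring]

lemma isClosed_hingeBody (C : Set (E n)) (a w : ℝ) : IsClosed (hingeBody C a w) := by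
  simp only [hingeBody, ofPred_forall]
  exact isClosed_iInter fun φ => isClosed_le φ.continuous continuous_const

lemma convex_hingeBody (C : Set (E n)) (a w : ℝ) : Convex ℝ (hingeBody C a w) := by
  intro x hx y hy s t hs ht hst φ
  simp only [map_add, map_smul, smul_eq_mul]
  calc s * φ x + t * φ y ≤ s * hinge C a w φ + t * hinge C a w φ := by
        gcongr <;> [exact hx φ; exact hy φ]
    _ = hinge C a w φ := by rw [← add_mul, hst, one_mul]

lemma zero_mem_hingeBody (C : Set (E n)) (a w : ℝ) : (0 : E n) ∈ hingeBody C a w := fun φ => by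
  rw [map_zero]; exact hinge_nonneg C a w φ

lemma isCompact_hingeBody (ha : 0 ≤ a) (hw : 0 < w) (hC : Body C) :
    IsCompact (hingeBody C a w) := by
  obtain ⟨R, hR⟩ := hC.compact.isBounded.exists_norm_le
  refine (isCompact_closedBall (0 : E n) (max R 0 / w)).of_isClosed_subset
    (isClosed_hingeBody C a w) fun z hz => mem_closedBall_zero_iff.2 ?_
  rcases eq_or_lt_of_le (norm_nonneg z) with h | h
  · rw [← h]; positivity
  have h1 := hz (innerSL ℝ z)
  rw [innerSL_apply_apply, real_inner_self_eq_norm_sq] at h1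
  have h2 := hinge_le_norm ha hw hC (fun x hx => (hR x hx).trans (le_max_left R 0))
    (le_max_right _ _) (innerSL ℝ z)
  rw [innerSL_apply_norm, mul_div_assoc] at h2
  exact le_of_mul_le_mul_left (by nlinarith [h1.trans h2]) h

/-- The support function of the Orlicz centroid body is below the hinge norm. -/
lemma suppD_hingeBody_le (C : Set (E n)) (a w : ℝ) (φ : E n →L[ℝ] ℝ) :
    suppD (hingeBody C a w) φ ≤ hinge C a w φ :=
  suppD_le ⟨0, zero_mem_hingeBody C a w⟩ fun _ hz => hz φ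

/-- The coupling inequality for the hinge integrals. -/
lemma hingeInt_steiner_le (hC : Body C) (hu : ‖u‖ = 1) {ψ φ₁ φ₂ : E n →L[ℝ] ℝ} {σ τ : ℝ}
    (hσ : σ = 1 ∨ σ = -1) (hτ : τ = 1 ∨ τ = -1) (hz : φ₁ u + φ₂ u = 0)
    (hy : ∀ y : Perp u, ψ y = φ₁ y + φ₂ y) (ht : ψ u = τ * φ₁ u + σ * φ₂ u) (b₁ b₂ : ℝ) :
    hingeInt (steiner u C) (b₁ + b₂) ψ ≤ hingeInt C b₁ φ₁ + hingeInt C b₂ φ₂ := by
  show hingeInt (steiner u C) (b₁ + b₂) ψ ≤
    (∫ x in C, max (|φ₁ x| - b₁) 0) + ∫ x in C, max (|φ₂ x| - b₂) 0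
  set G₁ : E n → ℝ := fun x => max (|φ₁ x| - b₁) 0 with hG₁
  set G₂ : E n → ℝ := fun x => max (|φ₂ x| - b₂) 0 with hG₂
  have c1 : Continuous G₁ := by fun_prop
  have c2 : Continuous G₂ := by fun_prop
  have c0 : Continuous fun x => max (|ψ x| - (b₁ + b₂)) 0 := by fun_prop
  have hSc := isCompact_steiner hC.compact u
  obtain ⟨i0, e0⟩ := integral_fib hSc hu c0
  obtain ⟨i1, e1⟩ := integral_fib hC.compact hu c1
  obtain ⟨i2, e2⟩ := integral_fib hC.compact hu c2
  rw [hingeInt, e0, e1, e2, ← integral_add i1 i2]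
  refine integral_mono i0 (i1.add i2) fun y => ?_
  obtain ⟨c, hc⟩ := exists_centre hC.compact hC.convex hu y
  set J := fib (steiner u C) u y with hJ
  have hJc : IsCompact J := isCompact_fib hSc hu y
  have tr : ∀ (G : E n → ℝ) (ρ : ℝ), (ρ = 1 ∨ ρ = -1) →
      ∫ t in J, G (perpCoord u (ρ * t + c, y)) = ∫ t in fib C u y, G (perpCoord u (t, y)) := by
    intro G ρ hρ
    rw [← fib_translate (fun t => (hc t).1) fun t => G (perpCoord u (t, y))]
    rcases hρ with rfl | rfl
    · simp only [one_mul]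
    · conv_rhs => rw [← fib_reflect (fun t => (hc t).2)]
      simp only [neg_mul, one_mul]
  show ∫ t in J, max (|ψ (perpCoord u (t, y))| - (b₁ + b₂)) 0 ≤
    (∫ t in fib C u y, G₁ (perpCoord u (t, y))) + ∫ t in fib C u y, G₂ (perpCoord u (t, y))
  rw [← tr G₁ τ hτ, ← tr G₂ σ hσ]
  have cp : ∀ ρ : ℝ, Continuous fun t : ℝ => perpCoord u (ρ * t + c, y) := fun ρ =>
    (continuous_perpCoord u).comp (by fun_prop)
  refine (setIntegral_mono_on ?_ ?_ hJc.isClosed.measurableSet fun t _ => ?_).trans_eq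
    (integral_add ((c1.comp (cp τ)).continuousOn.integrableOn_compact hJc).integrable
      ((c2.comp (cp σ)).continuousOn.integrableOn_compact hJc).integrable)
  · exact (c0.comp ((continuous_perpCoord u).comp (by fun_prop))).continuousOn.integrableOn_compact hJc
  · exact ((c1.comp (cp τ)).add (c2.comp (cp σ))).continuousOn.integrableOn_compact hJc
  have e : ψ (perpCoord u (t, y)) =
      φ₁ (perpCoord u (τ * t + c, y)) + φ₂ (perpCoord u (σ * t + c, y)) := by
    simp only [perpCoord_def, map_add, map_smul, smul_eq_mul, hy, ht]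
    have : c * (φ₁ u + φ₂ u) = 0 := by rw [hz, mul_zero]
    linarith
  rw [e]
  simp only [hG₁, hG₂, Function.comp_apply]
  refine max_le ?_ (add_nonneg (le_max_right _ _) (le_max_right _ _))
  linarith [le_max_left (|φ₁ (perpCoord u (τ * t + c, y))| - b₁) 0,
    le_max_left (|φ₂ (perpCoord u (σ * t + c, y))| - b₂) 0,
    abs_add_le (φ₁ (perpCoord u (τ * t + c, y))) (φ₂ (perpCoord u (σ * t + c, y)))]

/-- The coupling inequality. -/
lemma hinge_steiner_le (ha : 0 ≤ a) (hw : 0 < w) (hC : Body C) (hu : ‖u‖ = 1)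
    {ψ φ₁ φ₂ : E n →L[ℝ] ℝ} {σ τ : ℝ} (hσ : σ = 1 ∨ σ = -1) (hτ : τ = 1 ∨ τ = -1)
    (hz : φ₁ u + φ₂ u = 0) (hy : ∀ y : Perp u, ψ y = φ₁ y + φ₂ y)
    (ht : ψ u = τ * φ₁ u + σ * φ₂ u) :
    hinge (steiner u C) a w ψ ≤ hinge C a w φ₁ + hinge C a w φ₂ := by
  refine le_of_forall_pos_le_add fun η hη => ?_
  set α := hinge C a w φ₁ + η / 2 with hαd
  set β := hinge C a w φ₂ + η / 2 with hβd
  have hαβ : 0 < α + β := by
    have := hinge_nonneg C a w φ₁; have := hinge_nonneg C a w φ₂; linarith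
  suffices h : hinge (steiner u C) a w ψ ≤ α + β by linarith
  refine hinge_le hαβ ?_
  have key := hingeInt_steiner_le hC hu hσ hτ hz hy ht (a * α) (a * β)
  rw [← mul_add] at key
  rw [vol_steiner hC.compact hC.convex hu]
  have b1 := hinge_feasible ha hw hC (φ := φ₁) (l := α) (by linarith)
  have b2 := hinge_feasible ha hw hC (φ := φ₂) (l := β) (by linarith)
  linarith

/-- The Orlicz centroid body of a symmetrisation lies in the symmetrised Orlicz centroid body. -/
theorem hingeBody_steiner_subset (ha : 0 ≤ a) (hw : 0 < w) (hC : Body C) (hu : ‖u‖ = 1) :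
    hingeBody (steiner u C) a w ⊆ steiner u (hingeBody C a w) :=
  normBody_steiner_subset hu (hinge_smul ha hw hC) fun _ _ _ _ _ hσ hτ hz hy ht =>
    hinge_steiner_le ha hw hC hu hσ hτ hz hy ht

/-- Steiner symmetrisation does not increase the volume of the Orlicz centroid body. -/
theorem vol_hingeBody_steiner_le (ha : 0 ≤ a) (hw : 0 < w) (hC : Body C) (hu : ‖u‖ = 1) :
    vol (hingeBody (steiner u C) a w) ≤ vol (hingeBody C a w) := by
  rw [← vol_steiner (isCompact_hingeBody ha hw hC) (convex_hingeBody C a w) hu]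
  exact vol_mono (isCompact_steiner (isCompact_hingeBody ha hw hC) u)
    (hingeBody_steiner_subset ha hw hC hu)

end Vale.Agent.P237.Centroid
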