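import Vale.Agent.P237.Centroid.Hinge
import Vale.Agent.P237.Centroid.Ball

/-!
# P237: the cone average of the hinge norm of the conormals

Among bodies of equal volume the ball has the smallest hinge Orlicz centroid body, so by
Minkowski's first inequality the average over `x ∈ K` of the hinge norm on `K` of the conormal
`fderiv (gauge K) x` is at least one, the weight being the hinge moment of the unit ball.
-/

namespace Vale.Agent.P237.Centroid

open MeasureTheory Set Filter Topology Metric TopologicalSpace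
open scoped Pointwise RealInnerProductSpace ENNReal

variable {n : ℕ} {a w : ℝ}

/-- A functional that is continuous under dilation sandwiches and not increased by Steiner
symmetrisation is, among bodies of given volume, not larger on some ball. -/
theorem exists_ball_le (hn : 1 ≤ n) (F : Set (E n) → ℝ) (N : ℕ)
    (hF : ∀ A B : Set (E n), Body A → Body B → ∀ c : ℝ, 1 ≤ c → B ⊆ c • A → A ⊆ c • B →
      F B ≤ c ^ N * F A)
    (hFs : ∀ (C : Set (E n)) (u : E n), Body C → ‖u‖ = 1 → F (steiner u C) ≤ F C)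
    {K : Set (E n)} (hK : SymBody K) :
    ∃ ρ : ℝ, 0 < ρ ∧ vol (closedBall (0 : E n) ρ) = vol K ∧
      F (closedBall (0 : E n) ρ) ≤ F K := by
  obtain ⟨R, hR⟩ := hK.compact.isBounded.exists_norm_le
  have h0 : (0 : E n) ∈ interior K := by
    obtain ⟨x, hx⟩ := hK.interior_nonempty
    have hKs : (fun z : E n => -z) ⁻¹' K = K := Set.ext fun z =>
      ⟨fun h => by simpa using hK.neg_mem _ h, fun h => hK.neg_mem z h⟩
    have hx' : -x ∈ interior K := by
      have := ((Homeomorph.neg (E n)).preimage_interior K)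
      rw [show (Homeomorph.neg (E n) : E n → E n) = fun z => -z from rfl, hKs] at this
      rw [← this]
      simpa using hx
    have := hK.convex.interior hx hx' (show (0 : ℝ) ≤ 1 / 2 by norm_num)
      (show (0 : ℝ) ≤ 1 / 2 by norm_num) (by norm_num)
    simpa using this
  obtain ⟨r, hr, hball⟩ := Metric.nhds_basis_closedBall.mem_iff.1 (mem_interior_iff_mem_nhds.1 h0)
  let K₀ : NonemptyCompacts (E n) := ⟨⟨K, hK.compact⟩, hK.toBody.nonempty⟩
  set T : Set (NonemptyCompacts (E n)) := Class n r R ∩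
    (fun L : NonemptyCompacts (E n) => (vol (L : Set (E n)), F (L : Set (E n)))) ⁻¹'
      ({vol K} ×ˢ Iic (F K)) with hT
  have hS := isCompact_Class (n := n) r R
  have cv := continuousOn_of_sandwich (R := R) hr (fun C : Set (E n) => vol C) n vol_sandwich
  have cm := continuousOn_of_sandwich (R := R) hr (fun C : Set (E n) => F C)
    N hF
  have cs := continuousOn_of_sandwich (R := R) hr (fun C : Set (E n) => secondMoment C) (n + 2)
    secondMoment_sandwich
  have hTc : IsCompact T := hS.of_isClosed_subset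
    ((cv.prodMk cm).preimage_isClosed_of_isClosed hS.isClosed
      (isClosed_singleton.prod isClosed_Iic)) inter_subset_left
  have hK0 : K₀ ∈ T :=
    ⟨⟨hK.convex, hK.neg_mem, hball, fun x hx => mem_closedBall_zero_iff.2 (hR x hx)⟩,
      ⟨rfl, show F K ≤ F K from le_rfl⟩⟩
  obtain ⟨M, ⟨hMS, hMv, hMm⟩, hmin⟩ :=
    hTc.exists_isMinOn ⟨K₀, hK0⟩ (cs.mono inter_subset_left)
  have hMb := Class.body hr hMS
  have inv : ∀ u : E n, ‖u‖ = 1 → steiner u (M : Set (E n)) = (M : Set (E n)) := by
    intro u hu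
    have hsub := closedBall_subset_steiner hu hMS.2.2.1
    let M' : NonemptyCompacts (E n) := ⟨⟨steiner u (M : Set (E n)), isCompact_steiner M.isCompact u⟩,
      ⟨0, hsub (mem_closedBall_self hr.le)⟩⟩
    have hM'S : M' ∈ Class n r R := ⟨convex_steiner hMS.1 u,
      fun x hx => neg_mem_steiner hMS.2.1 hx, hsub, steiner_subset_closedBall hu hMS.2.2.2⟩
    have hM'T : M' ∈ T := ⟨hM'S,
      ⟨show vol (steiner u (M : Set (E n))) = vol K from
          (vol_steiner M.isCompact hMS.1 hu).trans hMv,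
        show F (steiner u (M : Set (E n))) ≤ F K from
          (hFs _ u hMb hu).trans hMm⟩⟩
    exact (secondMoment_steiner hMb hu (Class.body hr hM'S)).2 (hmin hM'T)
  have hrefl : ∀ u : E n, ‖u‖ = 1 → ∀ x ∈ (M : Set (E n)), refl u x ∈ (M : Set (E n)) := by
    intro u hu x hx
    obtain ⟨y, hy⟩ := perpCoord_surj hu x
    obtain ⟨c, hc⟩ := exists_centre M.isCompact hMS.1 hu y
    have h1 : ⟪x, u⟫ ∈ fib (steiner u (M : Set (E n))) u y := by
      rw [inv u hu]
      show perpCoord u _ ∈ (M : Set (E n))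
      rw [← hy]; exact hx
    have h2 := (hc _).2.1 h1
    rw [inv u hu] at h2
    have h3 : refl u x = perpCoord u (-⟪x, u⟫, y) := by
      conv_lhs => rw [refl, hy, inner_perpCoord hu]
      simp only [perpCoord_def]
      module
    rw [h3]; exact h2
  obtain ⟨x₀, hx₀, hmax⟩ := M.isCompact.exists_isMaxOn M.nonempty continuous_norm.continuousOn
  set ρ := ‖x₀‖ with hρ
  have hρ0 : 0 < ρ := by
    have : Nonempty (Fin n) := ⟨⟨0, hn⟩⟩
    obtain ⟨e, he⟩ := (NormedSpace.sphere_nonempty (x := (0 : E n))).2 hr.le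
    have : r ≤ ρ := by
      rw [← mem_sphere_zero_iff_norm.1 he]
      exact hmax (hMS.2.2.1 (sphere_subset_closedBall he))
    linarith
  have hrot : ∀ z : E n, ‖z‖ = ρ → z ∈ (M : Set (E n)) := by
    intro z hz
    rcases eq_or_ne x₀ z with h | h
    · exact h ▸ hx₀
    set v := x₀ - z with hv
    have hv0 : ‖v‖ ≠ 0 := norm_ne_zero_iff.2 (sub_ne_zero.2 h)
    have hu : ‖‖v‖⁻¹ • v‖ = 1 := by rw [norm_smul, norm_inv, norm_norm, inv_mul_cancel₀ hv0]
    have hkey : 2 * ⟪x₀, v⟫ = ‖v‖ ^ 2 := by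
      rw [hv, norm_sub_sq_real, inner_sub_right, real_inner_self_eq_norm_sq, hz, ← hρ]
      ring
    have hz' : refl (‖v‖⁻¹ • v) x₀ = z := by
      rw [refl, real_inner_smul_right, smul_smul,
        show 2 * (‖v‖⁻¹ * ⟪x₀, v⟫) * ‖v‖⁻¹ = 1 by
          field_simp; linarith [hkey], one_smul, hv, sub_sub_cancel]
    exact hz' ▸ hrefl _ hu x₀ hx₀
  have hMball : (M : Set (E n)) = closedBall 0 ρ := by
    refine Subset.antisymm (fun x hx => mem_closedBall_zero_iff.2 (hmax hx)) fun z hz => ?_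
    rw [mem_closedBall_zero_iff] at hz
    rcases eq_or_ne z 0 with rfl | h
    · exact hMS.2.2.1 (mem_closedBall_self hr.le)
    have hz0 : 0 < ‖z‖ := norm_pos_iff.2 h
    have hw : (ρ / ‖z‖) • z ∈ (M : Set (E n)) := hrot _ (by
      rw [norm_smul, Real.norm_of_nonneg (by positivity), div_mul_cancel₀ _ hz0.ne'])
    have h01 : (0 : E n) ∈ (M : Set (E n)) := hMS.2.2.1 (mem_closedBall_self hr.le)
    have hle : ‖z‖ / ρ ≤ 1 := (div_le_one hρ0).2 hz
    have := hMS.1 hw h01 (show 0 ≤ ‖z‖ / ρ by positivity) (sub_nonneg.2 hle) (by ring)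
    rw [smul_zero, add_zero, smul_smul, div_mul_div_comm, mul_comm, div_self (by positivity),
      one_smul] at this
    exact this
  exact ⟨ρ, hρ0, hMball ▸ hMv, hMball ▸ hMm⟩

lemma hinge_sandwich (ha : 0 ≤ a) (hw : 0 < w) {K L : Set (E n)} (hK : Body K) (hL : Body L)
    {c : ℝ} (hc : 1 ≤ c) (hLK : L ⊆ c • K) (hKL : K ⊆ c • L) (φ : E n →L[ℝ] ℝ) :
    hinge L a w φ ≤ c ^ (2 * n + 1) * hinge K a w φ := by
  have hc0 : 0 < c := by linarith
  set q := c ^ (2 * n + 1) with hq
  have hq0 : 0 < q := by positivity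
  refine le_of_forall_gt_imp_ge_of_dense fun l' hl' => ?_
  set l := l' / q with hl
  have hl'e : l' = q * l := by rw [hl]; field_simp
  have hlt : hinge K a w φ < l := by rw [hl, lt_div_iff₀ hq0, mul_comm]; exact hl'
  have hl0 : 0 < l := lt_of_le_of_lt (hinge_nonneg K a w φ) hlt
  refine hinge_le (by rw [hl'e]; positivity) ?_
  have hcq : c ≤ q := le_self_pow₀ hc (by omega)
  have h1 : hingeInt L (a * l') φ ≤ hingeInt L (a * (c * l)) φ :=
    hingeInt_anti hL.compact (by rw [hl'e]; gcongr) φ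
  have h2 : hingeInt L (a * (c * l)) φ ≤ hingeInt (c • K) (a * (c * l)) φ :=
    setIntegral_mono_set (integrableOn_hinge (hK.compact.smul c) _ φ)
      (ae_of_all _ fun x => le_max_right _ _) hLK.eventuallyLE
  have h3 : hingeInt (c • K) (a * (c * l)) φ = c ^ n * (c * hingeInt K (a * l) φ) := by
    have h := Measure.setIntegral_comp_smul_of_pos (volume : Measure (E n))
      (fun x => max (|φ x| - a * (c * l)) 0) K hc0
    have e : ∀ x, max (|φ (c • x)| - a * (c * l)) 0 = c * max (|φ x| - a * l) 0 := fun x => by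
      rw [map_smul, smul_eq_mul, abs_mul, abs_of_pos hc0, mul_max_of_nonneg _ _ hc0.le, mul_zero]
      congr 1
      ring
    simp only [e, integral_const_mul, finrank_euclideanSpace_fin, smul_eq_mul] at h
    simp only [hingeInt]
    rw [h, mul_inv_cancel_left₀ (pow_pos hc0 n).ne']
  have h4 := hinge_feasible ha hw hK hlt
  have h5 := vol_sandwich L K hL hK c hc hKL hLK
  have := vol_nonneg L
  calc hingeInt L (a * l') φ ≤ c ^ n * (c * hingeInt K (a * l) φ) := h3 ▸ h1.trans h2
    _ ≤ c ^ n * (c * (w * l * (c ^ n * vol L))) := by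
        gcongr
        exact h4.trans (mul_le_mul_of_nonneg_left h5 (by positivity))
    _ = w * l' * vol L := by rw [hl'e, hq]; ring

lemma hingeBody_sandwich (ha : 0 ≤ a) (hw : 0 < w) (K L : Set (E n)) (hK : Body K) (hL : Body L)
    (c : ℝ) (hc : 1 ≤ c) (hLK : L ⊆ c • K) (hKL : K ⊆ c • L) :
    vol (hingeBody L a w) ≤ c ^ ((2 * n + 1) * n) * vol (hingeBody K a w) := by
  have hc0 : 0 < c := by linarith
  have hsub : hingeBody L a w ⊆ (c ^ (2 * n + 1)) • hingeBody K a w := by
    intro z hz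
    refine ⟨(c ^ (2 * n + 1))⁻¹ • z, fun φ => ?_, smul_inv_smul₀ (by positivity) z⟩
    rw [map_smul, smul_eq_mul, inv_mul_le_iff₀ (by positivity)]
    exact (hz φ).trans (hinge_sandwich ha hw hK hL hc hLK hKL φ)
  refine (vol_mono ((isCompact_hingeBody ha hw hK).smul _) hsub).trans_eq ?_
  rw [vol_smul, abs_of_pos (by positivity), ← pow_mul]

/-- The hinge moment of a coordinate of the unit ball. -/
noncomputable def ballHinge (e : E n) (a : ℝ) : ℝ :=
  hingeInt (closedBall (0 : E n) 1) a (innerSL ℝ e) / vol (closedBall (0 : E n) 1)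

lemma body_closedBall {ρ : ℝ} (hρ : 0 < ρ) : Body (closedBall (0 : E n) ρ) :=
  ⟨convex_closedBall _ _, isCompact_closedBall _ _,
    ⟨0, by rw [interior_closedBall _ hρ.ne']; exact mem_ball_self hρ⟩⟩

lemma ballHinge_pos {e : E n} (he : ‖e‖ = 1) (ha : 0 ≤ a) (ha1 : a < 1) : 0 < ballHinge e a := by
  refine div_pos ?_ (body_closedBall one_pos).vol_pos
  refine (setIntegral_pos_iff_support_of_nonneg_ae (ae_of_all _ fun x => le_max_right _ _)
    (integrableOn_hinge (isCompact_closedBall _ _) a _)).2 ?_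
  set O := ball (0 : E n) 1 ∩ {x | a < ⟪e, x⟫} with hO
  have hOo : IsOpen O := isOpen_ball.inter (isOpen_lt continuous_const (by fun_prop))
  have hmem : ((a + 1) / 2) • e ∈ O := by
    refine ⟨?_, ?_⟩
    · rw [mem_ball_zero_iff, norm_smul, he, mul_one, Real.norm_of_nonneg (by linarith)]
      linarith
    · show a < ⟪e, ((a + 1) / 2) • e⟫
      rw [real_inner_smul_right, real_inner_self_eq_norm_sq, he]
      linarith
  refine lt_of_lt_of_le (hOo.measure_pos volume ⟨_, hmem⟩) (measure_mono ?_)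
  rintro x ⟨hx1, (hx2 : a < ⟪e, x⟫)⟩
  refine ⟨Function.mem_support.2 (ne_of_gt (lt_max_of_lt_left ?_)), ball_subset_closedBall hx1⟩
  rw [innerSL_apply_apply]
  linarith [le_abs_self ⟪e, x⟫]

/-- The hinge moments of a ball are isotropic. -/
lemma hingeInt_ball (v e : E n) (he : ‖e‖ = 1) {ρ : ℝ} (hρ : 0 < ρ) (a : ℝ) :
    hingeInt (closedBall (0 : E n) ρ) (a * (ρ * ‖v‖)) (innerSL ℝ v) =
      ρ ^ n * (ρ * ‖v‖ * hingeInt (closedBall (0 : E n) 1) a (innerSL ℝ e)) := by
  set B := closedBall (0 : E n) 1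
  have hs : closedBall (0 : E n) ρ = ρ • B := by
    rw [_root_.smul_closedBall _ _ zero_le_one, smul_zero, Real.norm_of_nonneg hρ.le, mul_one]
  have hiso : ∫ x in B, max (|⟪v, x⟫| - a * ‖v‖) 0 = ‖v‖ * ∫ x in B, max (|⟪e, x⟫| - a) 0 := by
    set f := (ℝ ∙ (v - ‖v‖ • e))ᗮ.reflection with hf
    have h : ‖v‖ = ‖‖v‖ • e‖ := by rw [norm_smul, norm_norm, he, mul_one]
    have hv : f v = ‖v‖ • e := Submodule.reflection_sub h
    have hpre : f ⁻¹' B = B := by ext x; simp [B]
    conv_rhs => rw [← f.measurePreserving.setIntegral_preimage_emb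
      f.toHomeomorph.measurableEmbedding, hpre, ← integral_const_mul]
    refine setIntegral_congr_fun measurableSet_closedBall fun x _ => ?_
    have h2 : ⟪v, x⟫ = ‖v‖ * ⟪e, f x⟫ := by
      rw [← f.inner_map_map v x, hv, real_inner_smul_left]
    simp only [h2, abs_mul, abs_norm, mul_max_of_nonneg _ _ (norm_nonneg v), mul_zero, mul_sub,
      mul_comm a]
  have h := Measure.setIntegral_comp_smul_of_pos (volume : Measure (E n))
    (fun x => max (|⟪v, x⟫| - a * (ρ * ‖v‖)) 0) B hρ
  have e1 : ∀ x, max (|⟪v, ρ • x⟫| - a * (ρ * ‖v‖)) 0 = ρ * max (|⟪v, x⟫| - a * ‖v‖) 0 :=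
    fun x => by
      rw [real_inner_smul_right, abs_mul, abs_of_pos hρ, mul_max_of_nonneg _ _ hρ.le, mul_zero]
      congr 1
      ring
  simp only [e1, integral_const_mul, finrank_euclideanSpace_fin, smul_eq_mul, hiso] at h
  simp only [hingeInt, innerSL_apply_apply, hs]
  rw [mul_assoc ρ, h, mul_inv_cancel_left₀ (pow_pos hρ n).ne']

/-- The Orlicz centroid body of a ball contains the ball. -/
lemma closedBall_subset_hingeBody {ρ : ℝ} (hρ : 0 < ρ) {e : E n} (he : ‖e‖ = 1) (ha : 0 ≤ a)
    (ha1 : a < 1) :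
    closedBall (0 : E n) ρ ⊆ hingeBody (closedBall (0 : E n) ρ) a (ballHinge e a) := by
  intro z hz φ
  obtain ⟨v, rfl⟩ : ∃ v, innerSL ℝ v = φ :=
    ⟨(InnerProductSpace.toDual ℝ (E n)).symm φ, by ext x; simp [InnerProductSpace.toDual_symm_apply]⟩
  set w := ballHinge e a with hwdef
  have hw : 0 < w := ballHinge_pos he ha ha1
  set C := closedBall (0 : E n) ρ
  have hC : Body C := body_closedBall hρ
  rw [innerSL_apply_apply]
  have hzv : ⟪v, z⟫ ≤ ρ * ‖v‖ := (real_inner_le_norm v z).trans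
    ((mul_le_mul_of_nonneg_left (mem_closedBall_zero_iff.1 hz) (norm_nonneg v)).trans_eq (mul_comm _ _))
  refine hzv.trans (le_of_not_gt fun hlt => ?_)
  set l := (hinge C a w (innerSL ℝ v) + ρ * ‖v‖) / 2 with hl
  have h1 := hinge_feasible ha hw hC (φ := innerSL ℝ v) (l := l) (by linarith)
  have h2 : hingeInt C (a * (ρ * ‖v‖)) (innerSL ℝ v) ≤ hingeInt C (a * l) (innerSL ℝ v) :=
    hingeInt_anti hC.compact (mul_le_mul_of_nonneg_left (by linarith) ha) _
  have h3 : hingeInt C (a * (ρ * ‖v‖)) (innerSL ℝ v) = w * (ρ * ‖v‖) * vol C := by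
    rw [hingeInt_ball v e he hρ]
    have hvol : vol C = ρ ^ n * vol (closedBall (0 : E n) 1) := by
      rw [show C = ρ • closedBall (0 : E n) 1 by
        rw [_root_.smul_closedBall _ _ zero_le_one, smul_zero, Real.norm_of_nonneg hρ.le, mul_one],
        vol_smul, abs_of_pos hρ]
    have := (body_closedBall (n := n) one_pos).vol_pos.ne'
    rw [hvol, hwdef, ballHinge]
    field_simp
  have h4 : w * l * vol C < w * (ρ * ‖v‖) * vol C :=
    mul_lt_mul_of_pos_right (mul_lt_mul_of_pos_left (by linarith) hw) hC.vol_pos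
  linarith

/-- **Step (B).** The cone average of the hinge norm of the conormals is at least one. -/
theorem avg_hinge_normal_ge (hn : 1 ≤ n) (ha : 0 ≤ a) (ha1 : a < 1) {K : Set (E n)}
    (hK : SymBody K) (h0 : (0 : E n) ∈ interior K) {e : E n} (he : ‖e‖ = 1) :
    vol K ≤ ∫ x in K, hinge K a (ballHinge e a) (fderiv ℝ (gauge K) x) := by
  set w := ballHinge e a
  have hw : 0 < w := ballHinge_pos he ha ha1
  obtain ⟨ρ, hρ, hvol, hle⟩ := exists_ball_le hn (fun C => vol (hingeBody C a w))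
    ((2 * n + 1) * n) (hingeBody_sandwich ha hw)
    (fun C u hC hu => vol_hingeBody_steiner_le ha hw hC hu) hK
  have hlow : vol K ≤ vol (hingeBody K a w) := by
    rw [← hvol]
    exact (vol_mono (isCompact_hingeBody ha hw (body_closedBall hρ))
      (closedBall_subset_hingeBody hρ he ha ha1)).trans hle
  have hV := vol_nonneg K
  have hroot : vol K ≤
      vol (hingeBody K a w) ^ (1 / (n : ℝ)) * (vol K ^ (1 / (n : ℝ))) ^ (n - 1) := by
    refine le_trans (le_of_eq ?_) (mul_le_mul_of_nonneg_right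
      (Real.rpow_le_rpow hV hlow (by positivity)) (by positivity))
    rw [← pow_succ', Nat.sub_add_cancel hn, one_div, Real.rpow_inv_natCast_pow hV (by omega)]
  refine hroot.trans ((minkowski_first hn hK.toBody h0 (convex_hingeBody K a w)
    (isCompact_hingeBody ha hw hK.toBody) (zero_mem_hingeBody K a w)).trans ?_)
  obtain ⟨L, hL⟩ := hK.convex.lipschitz_gauge (Fisher.nhds_zero h0)
  have hcont := continuous_hinge ha hw hK.toBody
  obtain ⟨M, hM⟩ := (isCompact_closedBall (0 : E n →L[ℝ] ℝ) (L : ℝ)).exists_bound_of_continuousOn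
    hcont.continuousOn
  refine integral_mono_of_nonneg (ae_of_all _ fun x =>
    suppD_nonneg (isCompact_hingeBody ha hw hK.toBody) (zero_mem_hingeBody K a w) _) ?_
    (ae_of_all _ fun x => suppD_hingeBody_le K a w _)
  exact Fisher.integrableOn_of_bdd hK.compact
    (hcont.measurable.comp (measurable_fderiv ℝ (gauge K))) fun x _ =>
      hM _ (mem_closedBall_zero_iff.2 (norm_fderiv_le_of_lipschitz ℝ hL))

end Vale.Agent.P237.Centroid
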