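import Vale.Agent.P237.Centroid.HingeBound
import Vale.Agent.P237.SliceTop
import Vale.Agent.P237.AffineFisher

/-!
# P237: the hinge norm of a normal through its section function

For a normal `u` with `h_K(u) = 1` the hinge norm of `⟪u, ·⟫` on `K` is a functional of the section
function `affSlice K u` on `[-1, 1]`, and the weight `ballHinge e a` is the same functional of the
profile `√(1 - t²) ^ m`. The hinge norm is continuous in all three arguments.
-/

namespace Vale.Agent.P237.Centroid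

open MeasureTheory Set Filter Topology Metric
open scoped Pointwise RealInnerProductSpace ENNReal

variable {n : ℕ} {C K : Set (E n)} {a b w : ℝ}

/-- The hinge norm of the identity for the weight `A` on `[-1, 1]`. -/
noncomputable def hingeSlice (A : ℝ → ℝ) (a w : ℝ) : ℝ :=
  sInf {l : ℝ | 0 < l ∧
    ∫ t in (-1 : ℝ)..1, max (|t| - a * l) 0 * A t ≤ w * l * ∫ t in (-1 : ℝ)..1, A t}

/-- The hinge norm of the conormals is integrable on `K`. -/
lemma integrableOn_hinge_normal (ha : 0 ≤ a) (hw : 0 < w) (hK : Body K)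
    (h0 : (0 : E n) ∈ interior K) :
    IntegrableOn (fun x => hinge K a w (fderiv ℝ (gauge K) x)) K := by
  obtain ⟨L, hL⟩ := hK.convex.lipschitz_gauge (Fisher.nhds_zero h0)
  have hcont := continuous_hinge ha hw hK
  obtain ⟨M, hM⟩ := (isCompact_closedBall (0 : E n →L[ℝ] ℝ) (L : ℝ)).exists_bound_of_continuousOn
    hcont.continuousOn
  exact Fisher.integrableOn_of_bdd hK.compact
    (hcont.measurable.comp (measurable_fderiv ℝ (gauge K))) fun x _ =>
      hM _ (mem_closedBall_zero_iff.2 (norm_fderiv_le_of_lipschitz ℝ hL))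

/-- The average bound for finitely many hinges at once. -/
theorem avg_hinge_normal_sum_ge (hn : 1 ≤ n) {ι : Type*} (s : Finset ι) (c a : ι → ℝ)
    (hc : ∀ i ∈ s, 0 ≤ c i) (ha : ∀ i ∈ s, 0 ≤ a i ∧ a i < 1) (hK : SymBody K)
    (h0 : (0 : E n) ∈ interior K) {e : E n} (he : ‖e‖ = 1) :
    (∑ i ∈ s, c i) * vol K ≤
      ∫ x in K, ∑ i ∈ s, c i * hinge K (a i) (ballHinge e (a i)) (fderiv ℝ (gauge K) x) := by
  rw [integral_finsetSum _ fun i hi => (integrableOn_hinge_normal (ha i hi).1
    (ballHinge_pos he (ha i hi).1 (ha i hi).2) hK.toBody h0).const_mul (c i), Finset.sum_mul]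
  refine Finset.sum_le_sum fun i hi => ?_
  rw [integral_const_mul]
  exact mul_le_mul_of_nonneg_left (avg_hinge_normal_ge hn (ha i hi).1 (ha i hi).2 hK h0 he) (hc i hi)

lemma hinge_anti_left (ha : 0 ≤ a) (hab : a ≤ b) (hw : 0 < w) (hC : Body C)
    (φ : E n →L[ℝ] ℝ) : hinge C b w φ ≤ hinge C a w φ := by
  refine le_of_forall_gt_imp_ge_of_dense fun l hl => ?_
  have hl0 : 0 < l := lt_of_le_of_lt (hinge_nonneg C a w φ) hl
  exact hinge_le hl0 ((hingeInt_anti hC.compact (mul_le_mul_of_nonneg_right hab hl0.le) φ).trans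
    (hinge_feasible ha hw hC hl))

lemma hinge_anti_right {w' : ℝ} (ha : 0 ≤ a) (hw : 0 < w) (hww : w ≤ w') (hC : Body C)
    (φ : E n →L[ℝ] ℝ) : hinge C a w' φ ≤ hinge C a w φ := by
  refine le_of_forall_gt_imp_ge_of_dense fun l hl => ?_
  have hl0 : 0 < l := lt_of_le_of_lt (hinge_nonneg C a w φ) hl
  exact hinge_le hl0 ((hinge_feasible ha hw hC hl).trans (mul_le_mul_of_nonneg_right
    (mul_le_mul_of_nonneg_right hww hl0.le) (vol_nonneg C)))

lemma continuous_hingeInt (hC : IsCompact C) :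
    Continuous fun p : ℝ × (E n →L[ℝ] ℝ) => hingeInt C p.1 p.2 :=
  continuous_parametric_integral_of_continuous
    (f := fun (p : ℝ × (E n →L[ℝ] ℝ)) x => max (|p.2 x| - p.1) 0)
    (by simp only [Function.uncurry_def]; fun_prop) hC

lemma hinge_le_iff (ha : 0 ≤ a) (hw : 0 < w) (hC : Body C) {φ : E n →L[ℝ] ℝ} {l : ℝ}
    (hl : 0 < l) : hinge C a w φ ≤ l ↔ hingeInt C (a * l) φ ≤ w * l * vol C := by
  refine ⟨fun h => ?_, hinge_le hl⟩
  have hc : Continuous fun s => hingeInt C (a * s) φ :=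
    (continuous_hingeInt hC.compact).comp (by fun_prop : Continuous fun s : ℝ => (a * s, φ))
  exact le_of_tendsto_of_tendsto (b := 𝓝[>] l) ((hc.tendsto l).mono_left nhdsWithin_le_nhds)
    (((by fun_prop : Continuous fun s => w * s * vol C).tendsto l).mono_left nhdsWithin_le_nhds)
    (by filter_upwards [self_mem_nhdsWithin] with s hs using
      hinge_feasible ha hw hC (lt_of_le_of_lt h hs))

lemma hinge_lt_iff (ha : 0 ≤ a) (hw : 0 < w) (hC : Body C) {φ : E n →L[ℝ] ℝ} {l : ℝ}
    (hl : 0 < l) : hinge C a w φ < l ↔ hingeInt C (a * l) φ < w * l * vol C := by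
  refine ⟨fun h => ?_, fun h => ?_⟩
  · set s := (max (hinge C a w φ) 0 + l) / 2 with hs
    have h1 : max (hinge C a w φ) 0 < l := max_lt h hl
    have h2 : hinge C a w φ < s := by linarith [le_max_left (hinge C a w φ) 0]
    calc hingeInt C (a * l) φ ≤ hingeInt C (a * s) φ :=
          hingeInt_anti hC.compact (mul_le_mul_of_nonneg_left (by linarith) ha) φ
      _ ≤ w * s * vol C := hinge_feasible ha hw hC h2
      _ < w * l * vol C :=
        mul_lt_mul_of_pos_right (mul_lt_mul_of_pos_left (by linarith) hw) hC.vol_pos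
  · have hc : Continuous fun s => hingeInt C (a * s) φ :=
      (continuous_hingeInt hC.compact).comp (by fun_prop : Continuous fun s : ℝ => (a * s, φ))
    have hev : ∀ᶠ s in 𝓝[<] l, (hingeInt C (a * s) φ < w * s * vol C ∧ 0 < s) ∧ s < l :=
      (((hc.continuousAt.eventually_lt (by fun_prop) h).and (eventually_gt_nhds hl)).filter_mono
        nhdsWithin_le_nhds).and self_mem_nhdsWithin
    obtain ⟨s, ⟨hs, hs0⟩, hsl⟩ := hev.exists
    exact ((hinge_le_iff ha hw hC hs0).2 hs.le).trans_lt hsl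

/-- The hinge norm is continuous in all three arguments. -/
lemma continuousOn_hinge (hC : Body C) :
    ContinuousOn (fun p : ℝ × ℝ × (E n →L[ℝ] ℝ) => hinge C p.1 p.2.1 p.2.2)
      (Ici 0 ×ˢ (Ioi 0 ×ˢ univ)) := by
  have hI : ∀ l : ℝ, Continuous fun p : ℝ × ℝ × (E n →L[ℝ] ℝ) =>
      hingeInt C (p.1 * l) p.2.2 := fun l =>
    (continuous_hingeInt hC.compact).comp
      (by fun_prop : Continuous fun p : ℝ × ℝ × (E n →L[ℝ] ℝ) => (p.1 * l, p.2.2))
  rintro p ⟨(ha : 0 ≤ p.1), (hw : 0 < p.2.1), -⟩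
  have h0 := hinge_nonneg C p.1 p.2.1 p.2.2
  refine tendsto_order.2 ⟨fun l hl => ?_, fun l hl => ?_⟩
  · rcases lt_or_ge l 0 with h | h
    · exact Eventually.of_forall fun q => h.trans_le (hinge_nonneg C _ _ _)
    set l' := (l + hinge C p.1 p.2.1 p.2.2) / 2 with hl'
    have hl0 : 0 < l' := by linarith
    have hgap : p.2.1 * l' * vol C < hingeInt C (p.1 * l') p.2.2 :=
      not_le.1 fun h' => absurd ((hinge_le_iff ha hw hC hl0).2 h') (by linarith)
    filter_upwards [((((by fun_prop : Continuous fun q : ℝ × ℝ × (E n →L[ℝ] ℝ) =>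
        q.2.1 * l' * vol C)).continuousAt.eventually_lt (hI l').continuousAt hgap).filter_mono
          nhdsWithin_le_nhds), self_mem_nhdsWithin] with q hq hqS
    exact lt_of_lt_of_le (by linarith : l < l') (le_of_lt (not_le.1 fun h' =>
      absurd ((hinge_le_iff hqS.1 hqS.2.1 hC hl0).1 h') (not_le.2 hq)))
  · have hl0 : 0 < l := lt_of_le_of_lt h0 hl
    have hgap := (hinge_lt_iff ha hw hC hl0).1 hl
    filter_upwards [((hI l).continuousAt.eventually_lt
        (by fun_prop : ContinuousAt (fun q : ℝ × ℝ × (E n →L[ℝ] ℝ) => q.2.1 * l * vol C) p)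
        hgap).filter_mono nhdsWithin_le_nhds, self_mem_nhdsWithin] with q hq hqS
    exact (hinge_lt_iff hqS.1 hqS.2.1 hC hl0).2 hq

lemma continuous_ballHinge (e : E n) : Continuous (ballHinge e) :=
  ((continuous_hingeInt (isCompact_closedBall (0 : E n) 1)).comp
    (by fun_prop : Continuous fun a : ℝ => (a, innerSL ℝ e))).div_const _

/-- The hinge norm with the ball weight is continuous in the threshold and the functional. -/
lemma continuousOn_hinge_ballHinge (hC : Body C) {e : E n} (he : ‖e‖ = 1) :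
    ContinuousOn (fun p : ℝ × (E n →L[ℝ] ℝ) => hinge C p.1 (ballHinge e p.1) p.2)
      (Ico 0 1 ×ˢ univ) :=
  ContinuousOn.comp (g := fun p : ℝ × ℝ × (E n →L[ℝ] ℝ) => hinge C p.1 p.2.1 p.2.2)
    (f := fun p : ℝ × (E n →L[ℝ] ℝ) => (p.1, ballHinge e p.1, p.2)) (continuousOn_hinge hC)
    (continuous_fst.prodMk (((continuous_ballHinge e).comp continuous_fst).prodMk
      continuous_snd)).continuousOn
    fun _ hp => ⟨hp.1.1, ballHinge_pos he hp.1.1 hp.1.2, mem_univ _⟩

/-- The hinge integral of a normal through the section function. -/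
lemma hingeInt_innerSL (hK : SymBody K) {u : E n} (hu : u ≠ 0) (h1 : ∀ x ∈ K, ⟪x, u⟫ ≤ 1)
    (b : ℝ) : hingeInt K b (innerSL ℝ u) =
      (‖u‖ ^ n)⁻¹ * ∫ t in (-1 : ℝ)..1, max (|t| - b) 0 * affSlice K u t := by
  rw [integral_affSlice hK hu h1 (by fun_prop : Continuous fun t : ℝ => max (|t| - b) 0),
    inv_mul_cancel_left₀ (pow_pos (norm_pos_iff.2 hu) n).ne', hingeInt]
  simp only [innerSL_apply_apply, real_inner_comm u]

/-- The volume through the section function. -/
lemma vol_eq_affSlice (hK : SymBody K) {u : E n} (hu : u ≠ 0) (h1 : ∀ x ∈ K, ⟪x, u⟫ ≤ 1) :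
    vol K = (‖u‖ ^ n)⁻¹ * ∫ t in (-1 : ℝ)..1, affSlice K u t := by
  have h := integral_affSlice hK hu h1 (continuous_const (y := (1 : ℝ)))
  simp only [one_mul, setIntegral_const, smul_eq_mul, mul_one] at h
  rw [h, inv_mul_cancel_left₀ (pow_pos (norm_pos_iff.2 hu) n).ne']
  rfl

/-- The hinge norm of a normal is the hinge norm of its section function. -/
theorem hinge_innerSL_eq (hK : SymBody K) {u : E n} (hu : u ≠ 0) (h1 : ∀ x ∈ K, ⟪x, u⟫ ≤ 1)
    (a w : ℝ) : hinge K a w (innerSL ℝ u) = hingeSlice (affSlice K u) a w := by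
  unfold hinge hingeSlice
  congr 1
  ext l
  simp only [mem_ofPred_eq, hingeInt_innerSL hK hu h1, vol_eq_affSlice hK hu h1, mul_left_comm
    (w * l), mul_le_mul_iff_right₀ (inv_pos.2 (pow_pos (norm_pos_iff.2 hu) n))]

lemma fderiv_gauge_eq_innerSL (K : Set (E n)) (x : E n) :
    fderiv ℝ (gauge K) x = innerSL ℝ (normalField K x) := by
  ext v
  rw [innerSL_apply_apply, inner_normalField]

/-- Almost every conormal has support value one and hinge norm given by its section function. -/
theorem hinge_normal_eq_slice (hn : 1 ≤ n) (hK : SymBody K) :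
    ∀ᵐ x, (normalField K x ≠ 0 ∧ (∀ y ∈ K, ⟪y, normalField K x⟫ ≤ 1) ∧
        ∃ y ∈ K, ⟪y, normalField K x⟫ = 1) ∧
      ∀ a w, hinge K a w (fderiv ℝ (gauge K) x) =
        hingeSlice (affSlice K (normalField K x)) a w := by
  filter_upwards [normalField_support (by omega) hK] with x hx
  have hne : normalField K x ≠ 0 := by
    obtain ⟨y, -, hy⟩ := hx.2
    intro h
    rw [h, inner_zero_right] at hy
    exact zero_ne_one hy
  refine ⟨⟨hne, hx⟩, fun a w => ?_⟩
  rw [fderiv_gauge_eq_innerSL, hinge_innerSL_eq hK hne hx.1]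

/-- Step (B) for the section functions. -/
theorem avg_hingeSlice_ge (hn : 1 ≤ n) (ha : 0 ≤ a) (ha1 : a < 1) (hK : SymBody K)
    (h0 : (0 : E n) ∈ interior K) {e : E n} (he : ‖e‖ = 1) :
    IntegrableOn (fun x => hingeSlice (affSlice K (normalField K x)) a (ballHinge e a)) K ∧
      vol K ≤ ∫ x in K, hingeSlice (affSlice K (normalField K x)) a (ballHinge e a) := by
  have hae : (fun x => hinge K a (ballHinge e a) (fderiv ℝ (gauge K) x)) =ᵐ[volume.restrict K]
      fun x => hingeSlice (affSlice K (normalField K x)) a (ballHinge e a) :=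
    ae_restrict_of_ae ((hinge_normal_eq_slice hn hK).mono fun x hx => hx.2 _ _)
  exact ⟨(integrableOn_hinge_normal ha (ballHinge_pos he ha ha1) hK.toBody h0).congr hae,
    (avg_hinge_normal_ge hn ha ha1 hK h0 he).trans_eq (integral_congr_ae hae)⟩

/-- The sections of the unit ball. -/
lemma sliceVol_ball {m : ℕ} {e : E (m + 1)} (he : ‖e‖ = 1) {t : ℝ} (ht : t ∈ Icc (-1 : ℝ) 1) :
    sliceVol (closedBall (0 : E (m + 1)) 1) e t =
      √(1 - t ^ 2) ^ m * vol (closedBall (0 : E m) 1) := by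
  obtain ⟨i⟩ := exists_perpIso he
  have hs : 0 ≤ 1 - t ^ 2 := by nlinarith [ht.1, ht.2]
  have hset : {y : Perp e | t • e + (y : E (m + 1)) ∈ closedBall (0 : E (m + 1)) 1} =
      i ⁻¹' closedBall (0 : E m) √(1 - t ^ 2) := by
    ext y
    simp only [mem_ofPred_eq, mem_preimage, mem_closedBall_zero_iff, i.norm_map]
    have hsq := norm_add_sq_eq_norm_sq_add_norm_sq_real
      (show ⟪t • e, (y : E (m + 1))⟫ = 0 by
        rw [real_inner_smul_left, real_inner_comm, inner_perp, mul_zero])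
    rw [norm_smul, he, mul_one, Real.norm_eq_abs] at hsq
    rw [Real.le_sqrt (norm_nonneg _) hs, ← sq_le_one_iff₀ (norm_nonneg _)]
    rw [← Submodule.norm_coe]
    constructor <;> intro h <;> nlinarith [sq_abs t]
  have hball : closedBall (0 : E m) √(1 - t ^ 2) = √(1 - t ^ 2) • closedBall (0 : E m) 1 := by
    rw [_root_.smul_closedBall _ _ zero_le_one, smul_zero,
      Real.norm_of_nonneg (Real.sqrt_nonneg _), mul_one]
  rw [sliceVol, hset, i.measurePreserving.measure_preimage
    measurableSet_closedBall.nullMeasurableSet, hball]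
  exact (vol_smul _ _).trans (by rw [abs_of_nonneg (Real.sqrt_nonneg _)])

/-- Integrals over the unit ball of functions of one coordinate. -/
lemma setIntegral_ball_inner {m : ℕ} {e : E (m + 1)} (he : ‖e‖ = 1) {g : ℝ → ℝ}
    (hg : Continuous g) :
    ∫ x in closedBall (0 : E (m + 1)) 1, g ⟪x, e⟫ =
      vol (closedBall (0 : E m) 1) * ∫ t in (-1 : ℝ)..1, g t * √(1 - t ^ 2) ^ m := by
  have hB : SymBody (closedBall (0 : E (m + 1)) 1) :=
    ⟨body_closedBall one_pos, fun x hx => by simpa using hx⟩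
  have hle : ∀ x ∈ closedBall (0 : E (m + 1)) 1, ⟪x, e⟫ ≤ 1 := fun x hx =>
    (real_inner_le_norm x e).trans (by rw [he, mul_one]; exact mem_closedBall_zero_iff.1 hx)
  have he0 : e ≠ 0 := norm_ne_zero_iff.1 (by rw [he]; exact one_ne_zero)
  have h := integral_affSlice hB he0 hle hg
  rw [he, one_pow, one_mul] at h
  rw [← h, ← intervalIntegral.integral_const_mul]
  refine intervalIntegral.integral_congr fun t ht => ?_
  rw [uIcc_of_le (by norm_num)] at ht
  simp only [affSlice, he, inv_one, one_smul, sliceVol_ball he ht]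
  ring

/-- The ball weight is the hinge moment of the profile `√(1 - t²) ^ m`. -/
theorem ballHinge_eq {m : ℕ} {e : E (m + 1)} (he : ‖e‖ = 1) (a : ℝ) :
    ballHinge e a = (∫ t in (-1 : ℝ)..1, max (|t| - a) 0 * √(1 - t ^ 2) ^ m) /
      ∫ t in (-1 : ℝ)..1, √(1 - t ^ 2) ^ m := by
  have hV : 0 < vol (closedBall (0 : E m) 1) := (body_closedBall one_pos).vol_pos
  have h1 := setIntegral_ball_inner he (by fun_prop : Continuous fun t : ℝ => max (|t| - a) 0)
  have h2 := setIntegral_ball_inner he (continuous_const (y := (1 : ℝ)))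
  simp only [one_mul, setIntegral_const, smul_eq_mul, mul_one] at h2
  rw [ballHinge, hingeInt]
  have hc : ∀ x : E (m + 1), ⟪e, x⟫ = ⟪x, e⟫ := fun x => real_inner_comm _ _
  simp only [innerSL_apply_apply, hc]
  rw [h1, show vol (closedBall (0 : E (m + 1)) 1) = _ from h2, mul_div_mul_left _ _ hV.ne']

end Vale.Agent.P237.Centroid
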