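import Vale.Agent.P237.Centroid.Ball

/-!
# P237, step (b): the average moment norm of the conormals

For a symmetric body `K` and `p ≥ 1`, the average over `x ∈ K` of the `L^p` norm on `K` of the
conormal `fderiv (gauge K) x` is at least the same moment of a coordinate on the unit ball.
-/

namespace Vale.Agent.P237.Centroid

open MeasureTheory Set Filter Topology Metric
open scoped Pointwise RealInnerProductSpace ENNReal

variable {n : ℕ} {p : ℕ}

/-- On the unit ball the moment norm is isotropic. -/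
lemma integral_ball_abs (v e : E n) (he : ‖e‖ = 1) :
    ∫ x in closedBall (0 : E n) 1, |⟪v, x⟫| ^ p =
      ‖v‖ ^ p * ∫ x in closedBall (0 : E n) 1, |⟪e, x⟫| ^ p := by
  set f := (ℝ ∙ (v - ‖v‖ • e))ᗮ.reflection with hf
  have h : ‖v‖ = ‖‖v‖ • e‖ := by rw [norm_smul, norm_norm, he, mul_one]
  have hv : f v = ‖v‖ • e := Submodule.reflection_sub h
  have hpre : f ⁻¹' closedBall (0 : E n) 1 = closedBall 0 1 := by
    ext x; simp
  conv_rhs => rw [← f.measurePreserving.setIntegral_preimage_emb
    f.toHomeomorph.measurableEmbedding, hpre, ← integral_const_mul]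
  refine setIntegral_congr_fun measurableSet_closedBall fun x _ => ?_
  have h2 : ⟪v, x⟫ = ‖v‖ * ⟪e, f x⟫ := by
    rw [← f.inner_map_map v x, hv, real_inner_smul_left]
  simp only [h2, abs_mul, abs_norm, mul_pow]

/-- The moment norm of a ball. -/
lemma mom_closedBall (hp : 1 ≤ p) {ρ : ℝ} (hρ : 0 < ρ) {e : E n} (he : ‖e‖ = 1) (v : E n) :
    mom (closedBall (0 : E n) ρ) p (innerSL ℝ v) =
      ρ * mom (closedBall (0 : E n) 1) p (innerSL ℝ e) * ‖v‖ := by
  set B := closedBall (0 : E n) 1
  have hs : closedBall (0 : E n) ρ = ρ • B := by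
    rw [_root_.smul_closedBall _ _ zero_le_one, smul_zero, Real.norm_of_nonneg hρ.le, mul_one]
  set Z := ∫ x in B, |⟪e, x⟫| ^ p
  have hZ : 0 ≤ Z := integral_nonneg fun x => by positivity
  have hI : ∫ x in closedBall (0 : E n) ρ, |⟪v, x⟫| ^ p = ρ ^ n * (ρ ^ p * (‖v‖ ^ p * Z)) := by
    have h := Measure.setIntegral_comp_smul_of_pos (volume : Measure (E n))
      (fun x => |⟪v, x⟫| ^ p) B hρ
    simp only [real_inner_smul_right, abs_mul, abs_of_pos hρ, mul_pow, integral_const_mul,
      finrank_euclideanSpace_fin, smul_eq_mul] at h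
    rw [hs, ← integral_ball_abs v e he, h, ← mul_assoc, mul_inv_cancel₀ (pow_pos hρ n).ne', one_mul]
  have hvol : vol (closedBall (0 : E n) ρ) = ρ ^ n * vol B := by
    rw [hs, vol_smul, abs_of_pos hρ]
  simp only [mom, innerSL_apply_apply]
  rw [hI, hvol, mul_div_mul_left _ _ (pow_pos hρ n).ne', mul_div_assoc, mul_div_assoc,
    Real.mul_rpow (by positivity) (mul_nonneg (by positivity) (div_nonneg hZ (vol_nonneg B))),
    Real.mul_rpow (by positivity) (div_nonneg hZ (vol_nonneg B)), one_div,
    Real.pow_rpow_inv_natCast hρ.le (by omega),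
    Real.pow_rpow_inv_natCast (norm_nonneg v) (by omega)]
  ring

/-- The moment body of a ball contains the corresponding ball. -/
lemma closedBall_subset_momBody (hp : 1 ≤ p) {ρ : ℝ} (hρ : 0 < ρ) {e : E n} (he : ‖e‖ = 1) :
    closedBall (0 : E n) (ρ * mom (closedBall (0 : E n) 1) p (innerSL ℝ e)) ⊆
      momBody (closedBall (0 : E n) ρ) p := by
  intro z hz φ
  obtain ⟨v, rfl⟩ : ∃ v, innerSL ℝ v = φ :=
    ⟨(InnerProductSpace.toDual ℝ (E n)).symm φ, by ext x; simp [InnerProductSpace.toDual_symm_apply]⟩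
  rw [innerSL_apply_apply, mom_closedBall hp hρ he v, mul_comm _ ‖v‖]
  exact ((le_abs_self _).trans (abs_real_inner_le_norm v z)).trans
    (mul_le_mul_of_nonneg_left (mem_closedBall_zero_iff.1 hz) (norm_nonneg v))

/-- **Step (b).** -/
theorem avg_mom_normal_ge (hn : 1 ≤ n) (hp : 1 ≤ p) {K : Set (E n)} (hK : SymBody K)
    (h0 : (0 : E n) ∈ interior K) {e : E n} (he : ‖e‖ = 1) :
    mom (closedBall (0 : E n) 1) p (innerSL ℝ e) * vol K ≤
      ∫ x in K, mom K p (fderiv ℝ (gauge K) x) := by
  set μ := mom (closedBall (0 : E n) 1) p (innerSL ℝ e) with hμ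
  have hμ0 : 0 ≤ μ := mom_nonneg _ _ _
  obtain ⟨ρ, hρ, hvol, hle⟩ := exists_ball_momBody_le hn hp hK
  set B := closedBall (0 : E n) 1
  have hB : ∀ s : ℝ, 0 ≤ s → vol (closedBall (0 : E n) s) = s ^ n * vol B := fun s hs => by
    have e : closedBall (0 : E n) s = s • B := by
      rw [_root_.smul_closedBall _ _ zero_le_one, smul_zero, Real.norm_of_nonneg hs, mul_one]
    rw [e, vol_smul, abs_of_nonneg hs]
  have hlow : μ ^ n * vol K ≤ vol (momBody K p) := by
    refine le_trans (le_of_eq ?_) ((vol_mono (isCompact_momBody (isCompact_closedBall _ _) hp)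
      (closedBall_subset_momBody hp hρ he)).trans hle)
    rw [← hvol, hB ρ hρ.le, hB _ (mul_nonneg hρ.le hμ0), mul_pow]
    ring
  have hn0 : (n : ℝ) ≠ 0 := by positivity
  have hV := vol_nonneg K
  have hroot : μ * vol K ≤
      vol (momBody K p) ^ (1 / (n : ℝ)) * (vol K ^ (1 / (n : ℝ))) ^ (n - 1) := by
    have h1 : μ * vol K ^ (1 / (n : ℝ)) ≤ vol (momBody K p) ^ (1 / (n : ℝ)) := by
      refine le_trans (le_of_eq ?_) (Real.rpow_le_rpow (by positivity) hlow (by positivity))
      rw [Real.mul_rpow (by positivity) hV, one_div, Real.pow_rpow_inv_natCast hμ0 (by omega)]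
    refine le_trans (le_of_eq ?_) (mul_le_mul_of_nonneg_right h1 (by positivity))
    rw [mul_assoc, ← pow_succ', Nat.sub_add_cancel hn, one_div,
      Real.rpow_inv_natCast_pow hV (by omega)]
  have hb := minkowski_first hn hK.toBody h0 (convex_momBody K p)
    (isCompact_momBody hK.compact hp) (zero_mem_momBody K p)
  refine hroot.trans (hb.trans ?_)
  -- compare the support function with the moment norm
  obtain ⟨L, hL⟩ := hK.convex.lipschitz_gauge (Fisher.nhds_zero h0)
  obtain ⟨R, hR⟩ := hK.compact.isBounded.exists_norm_le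
  have hcont : Continuous fun φ : E n →L[ℝ] ℝ => mom K p φ := by
    have : Continuous fun φ : E n →L[ℝ] ℝ => ∫ x in K, |φ x| ^ p :=
      continuous_parametric_integral_of_continuous (f := fun (φ : E n →L[ℝ] ℝ) x => |φ x| ^ p)
        (by fun_prop) hK.compact
    exact (this.div_const _).rpow_const fun _ => Or.inr (by positivity)
  have hmeas : Measurable fun x => mom K p (fderiv ℝ (gauge K) x) :=
    hcont.measurable.comp (measurable_fderiv ℝ (gauge K))
  obtain ⟨M, hM⟩ := (isCompact_closedBall (0 : E n →L[ℝ] ℝ) (L : ℝ)).exists_bound_of_continuousOn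
    hcont.continuousOn
  have hint : IntegrableOn (fun x => mom K p (fderiv ℝ (gauge K) x)) K :=
    Fisher.integrableOn_of_bdd hK.compact hmeas fun x _ =>
      hM _ (mem_closedBall_zero_iff.2 (norm_fderiv_le_of_lipschitz ℝ hL))
  refine integral_mono_of_nonneg (ae_of_all _ fun x =>
    suppD_nonneg (isCompact_momBody hK.compact hp) (zero_mem_momBody K p) _) hint
    (ae_of_all _ fun x => suppD_momBody_le K p _)

end Vale.Agent.P237.Centroid
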