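import Vale.Agent.P237.Basics
import Vale.Agent.P237.PerpCoord

/-!
# P237: Steiner symmetrisation along a unit vector

Defined as the image of the pairs of points of `C` on a common line parallel to `u` under
`(p, q) ↦ (p + reflection of q) / 2`, so convexity and compactness are free.  Fibrewise it is a
translate of `C`, so every iterated integral can be transferred without measurability of the
centres of the fibres.
-/

namespace Vale.Agent.P237.Centroid

open MeasureTheory Set Filter Topology Metric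
open scoped Pointwise RealInnerProductSpace ENNReal

variable {n : ℕ} {C : Set (E n)} {u : E n}

/-- The reflection in the hyperplane orthogonal to the unit vector `u`. -/
noncomputable def refl (u : E n) (x : E n) : E n := x - (2 * ⟪x, u⟫) • u

/-- Steiner symmetrisation of `C` along `u`. -/
noncomputable def steiner (u : E n) (C : Set (E n)) : Set (E n) :=
  (fun pq : E n × E n => (1 / 2 : ℝ) • (pq.1 + refl u pq.2)) ''
    {pq | pq.1 ∈ C ∧ pq.2 ∈ C ∧ pq.1 - ⟪pq.1, u⟫ • u = pq.2 - ⟪pq.2, u⟫ • u}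

lemma norm_refl (hu : ‖u‖ = 1) (x : E n) : ‖refl u x‖ = ‖x‖ := by
  have h : ‖refl u x‖ ^ 2 = ‖x‖ ^ 2 := by
    rw [refl, norm_sub_sq_real, real_inner_smul_right, norm_smul, hu, mul_one, Real.norm_eq_abs,
      sq_abs]
    ring
  exact (pow_left_inj₀ (norm_nonneg _) (norm_nonneg _) two_ne_zero).1 h

lemma isCompact_steiner (hC : IsCompact C) (u : E n) : IsCompact (steiner u C) := by
  refine IsCompact.image ((hC.prod hC).of_isClosed_subset ?_ fun pq h => ⟨h.1, h.2.1⟩) ?_
  · exact (hC.isClosed.preimage continuous_fst).inter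
      ((hC.isClosed.preimage continuous_snd).inter (isClosed_eq (by fun_prop) (by fun_prop)))
  · unfold refl; fun_prop

lemma convex_steiner (hC : Convex ℝ C) (u : E n) : Convex ℝ (steiner u C) := by
  rintro _ ⟨⟨p, q⟩, ⟨hp, hq, hpq⟩, rfl⟩ _ ⟨⟨p', q'⟩, ⟨hp', hq', hpq'⟩, rfl⟩ a b ha hb hab
  refine ⟨(a • p + b • p', a • q + b • q'), ⟨hC hp hp' ha hb hab, hC hq hq' ha hb hab, ?_⟩, ?_⟩
  · simp only [inner_add_left, real_inner_smul_left]
    calc a • p + b • p' - (a * ⟪p, u⟫ + b * ⟪p', u⟫) • u
        = a • (p - ⟪p, u⟫ • u) + b • (p' - ⟪p', u⟫ • u) := by module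
      _ = a • (q - ⟪q, u⟫ • u) + b • (q' - ⟪q', u⟫ • u) := by rw [hpq, hpq']
      _ = _ := by module
  · simp only [refl, inner_add_left, real_inner_smul_left]
    module

lemma neg_mem_steiner (hC : ∀ x ∈ C, -x ∈ C) {z : E n} (hz : z ∈ steiner u C) :
    -z ∈ steiner u C := by
  obtain ⟨⟨p, q⟩, ⟨hp, hq, hpq⟩, rfl⟩ := hz
  refine ⟨(-p, -q), ⟨hC p hp, hC q hq, ?_⟩, ?_⟩
  · simp only [inner_neg_left, neg_smul]
    rw [← sub_eq_zero] at hpq ⊢
    rw [← neg_eq_zero, ← hpq]
    module
  · simp only [refl, inner_neg_left]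
    module

lemma closedBall_subset_steiner (hu : ‖u‖ = 1) {r : ℝ} (h : closedBall 0 r ⊆ C) :
    closedBall 0 r ⊆ steiner u C := by
  intro z hz
  have hself : ⟪refl u z, u⟫ = -⟪z, u⟫ := by
    rw [refl, inner_sub_left, real_inner_smul_left, real_inner_self_eq_norm_sq, hu]
    ring
  refine ⟨(z, refl u z), ⟨h hz, h ?_, ?_⟩, ?_⟩
  · rw [mem_closedBall_zero_iff, norm_refl hu]
    exact mem_closedBall_zero_iff.1 hz
  · simp only [hself]
    rw [refl]
    module
  · simp only [refl, inner_sub_left, real_inner_smul_left, real_inner_self_eq_norm_sq, hu]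
    module

lemma steiner_subset_closedBall (hu : ‖u‖ = 1) {R : ℝ} (h : C ⊆ closedBall 0 R) :
    steiner u C ⊆ closedBall 0 R := by
  rintro _ ⟨⟨p, q⟩, ⟨hp, hq, -⟩, rfl⟩
  rw [mem_closedBall_zero_iff, norm_smul]
  have h1 := mem_closedBall_zero_iff.1 (h hp)
  have h2 := mem_closedBall_zero_iff.1 (h hq)
  have h3 := norm_add_le p (refl u q)
  rw [norm_refl hu] at h3
  norm_num
  linarith

/-- The fibre of `C` over a point of the hyperplane. -/
def fib (C : Set (E n)) (u : E n) (y : Perp u) : Set ℝ := {t | perpCoord u (t, y) ∈ C}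

lemma perpCoord_def (u : E n) (t : ℝ) (y : Perp u) : perpCoord u (t, y) = t • u + (y : E n) := rfl

lemma inner_perp (y : Perp u) : ⟪(y : E n), u⟫ = 0 :=
  (real_inner_comm u (y : E n)).symm ▸ Submodule.mem_orthogonal_singleton_iff_inner_right.1 y.2

lemma perpCoord_surj (hu : ‖u‖ = 1) (x : E n) :
    ∃ y : Perp u, x = perpCoord u (⟪x, u⟫, y) := by
  refine ⟨⟨x - ⟪x, u⟫ • u, Submodule.mem_orthogonal_singleton_iff_inner_right.2 ?_⟩, ?_⟩
  · rw [inner_sub_right, real_inner_smul_right, real_inner_self_eq_norm_sq, hu, real_inner_comm]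
    ring
  · rw [perpCoord_def]
    exact (add_sub_cancel _ _).symm

lemma mem_fib_steiner (hu : ‖u‖ = 1) {y : Perp u} {s : ℝ} :
    s ∈ fib (steiner u C) u y ↔
      ∃ a ∈ fib C u y, ∃ b ∈ fib C u y, 2 * s = a - b := by
  have hi : ∀ t : ℝ, ⟪perpCoord u (t, y), u⟫ = t := fun t => inner_perpCoord hu (t, y)
  constructor
  · rintro ⟨⟨p, q⟩, ⟨hp, hq, hpq⟩, he⟩
    obtain ⟨y₁, h1⟩ := perpCoord_surj hu p
    obtain ⟨y₂, h2⟩ := perpCoord_surj hu q
    have hy : y₁ = y₂ := Subtype.ext (by
      have e1 : p - ⟪p, u⟫ • u = (y₁ : E n) := by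
        conv_lhs => arg 1; rw [h1, perpCoord_def]
        exact add_sub_cancel_left _ _
      have e2 : q - ⟪q, u⟫ • u = (y₂ : E n) := by
        conv_lhs => arg 1; rw [h2, perpCoord_def]
        exact add_sub_cancel_left _ _
      rw [← e1, ← e2]
      exact hpq)
    subst hy
    have hmid : (1 / 2 : ℝ) • (p + refl u q) = perpCoord u ((⟪p, u⟫ - ⟪q, u⟫) / 2, y₁) := by
      conv_lhs => rw [h1, h2, refl, inner_perpCoord hu]
      simp only [perpCoord_def]
      module
    have hinj := (measurableEmbedding_perpCoord hu).injective (hmid.symm.trans he)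
    obtain rfl : y₁ = y := congrArg Prod.snd hinj
    refine ⟨⟪p, u⟫, ?_, ⟪q, u⟫, ?_, ?_⟩
    · show perpCoord u _ ∈ C
      rw [← h1]; exact hp
    · show perpCoord u _ ∈ C
      rw [← h2]; exact hq
    · have : (⟪p, u⟫ - ⟪q, u⟫) / 2 = s := congrArg Prod.fst hinj
      linarith
  · rintro ⟨a, ha, b, hb, hs⟩
    refine ⟨(perpCoord u (a, y), perpCoord u (b, y)), ⟨ha, hb, ?_⟩, ?_⟩
    · simp only [hi]
      simp only [perpCoord_def, add_sub_cancel_left]
    · simp only [refl, hi]
      have : s = (a - b) / 2 := by linarith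
      subst this
      simp only [perpCoord_def]
      module

lemma isCompact_fib (hC : IsCompact C) (hu : ‖u‖ = 1) (y : Perp u) : IsCompact (fib C u y) := by
  refine (Isometry.of_dist_eq (f := fun t : ℝ => perpCoord u (t, y)) fun a b => ?_)
    |>.isClosedEmbedding.isCompact_preimage hC
  simp only [perpCoord_def]
  rw [dist_add_right, dist_eq_norm, ← sub_smul, norm_smul, hu, mul_one, Real.dist_eq,
    Real.norm_eq_abs]

lemma convex_fib (hC : Convex ℝ C) (y : Perp u) : Convex ℝ (fib C u y) := by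
  intro a ha b hb p q hp hq hpq
  have := hC ha hb hp hq hpq
  show perpCoord u _ ∈ C
  convert this using 1
  simp only [perpCoord_def, smul_eq_mul]
  obtain rfl : p = 1 - q := by linarith
  module

/-- Each fibre of the symmetrisation is a translate of the fibre, and is symmetric. -/
lemma exists_centre (hCc : IsCompact C) (hC : Convex ℝ C) (hu : ‖u‖ = 1) (y : Perp u) :
    ∃ c : ℝ, ∀ t, (t ∈ fib (steiner u C) u y ↔ t + c ∈ fib C u y) ∧
      (t ∈ fib (steiner u C) u y ↔ -t ∈ fib (steiner u C) u y) := by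
  have hneg : ∀ t, t ∈ fib (steiner u C) u y → -t ∈ fib (steiner u C) u y := fun t ht => by
    obtain ⟨a, ha, b, hb, h⟩ := (mem_fib_steiner hu).1 ht
    exact (mem_fib_steiner hu).2 ⟨b, hb, a, ha, by linarith⟩
  have hsym : ∀ t, t ∈ fib (steiner u C) u y ↔ -t ∈ fib (steiner u C) u y := fun t =>
    ⟨hneg t, fun h => by simpa using hneg _ h⟩
  rcases (fib C u y).eq_empty_or_nonempty with h | h
  · refine ⟨0, fun t => ⟨⟨fun ht => ?_, fun ht => ?_⟩, hsym t⟩⟩
    · obtain ⟨a, ha, -⟩ := (mem_fib_steiner hu).1 ht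
      simp [h] at ha
    · simp [h] at ht
  have hI := eq_Icc_of_connected_compact ⟨h, (convex_fib hC y).isPreconnected⟩ (isCompact_fib hCc hu y)
  set l := sInf (fib C u y)
  set r := sSup (fib C u y)
  have hlr : l ≤ r := by
    obtain ⟨t, ht⟩ := h; rw [hI] at ht; exact ht.1.trans ht.2
  refine ⟨(l + r) / 2, fun t => ⟨?_, hsym t⟩⟩
  rw [mem_fib_steiner hu, hI]
  constructor
  · rintro ⟨a, ha, b, hb, hs⟩
    constructor <;> linarith [ha.1, ha.2, hb.1, hb.2]
  · intro ht
    refine ⟨t + (l + r) / 2, ht, -t + (l + r) / 2, ⟨?_, ?_⟩, by ring⟩ <;>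
      linarith [ht.1, ht.2]

/-- Fubini along the lines parallel to `u`. -/
lemma integral_fib (hC : IsCompact C) (hu : ‖u‖ = 1) {F : E n → ℝ} (hF : Continuous F) :
    Integrable (fun y : Perp u => ∫ t in fib C u y, F (perpCoord u (t, y))) ∧
      ∫ x in C, F x = ∫ y : Perp u, ∫ t in fib C u y, F (perpCoord u (t, y)) := by
  have hme := measurableEmbedding_perpCoord hu
  have hCm : MeasurableSet (perpCoord u ⁻¹' C) := hC.isClosed.measurableSet.preimage hme.measurable
  have hint : IntegrableOn (fun p => F (perpCoord u p)) (perpCoord u ⁻¹' C) :=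
    ((measurePreserving_perpCoord hu).integrableOn_comp_preimage hme).2
      (hF.continuousOn.integrableOn_compact hC)
  rw [← integrable_indicator_iff hCm, Measure.volume_eq_prod] at hint
  have e : (fun y : Perp u => ∫ t, (perpCoord u ⁻¹' C).indicator (fun p => F (perpCoord u p)) (t, y)) =
      fun y => ∫ t in fib C u y, F (perpCoord u (t, y)) := by
    funext y
    rw [← integral_indicator (isCompact_fib hC hu y).isClosed.measurableSet]
    rfl
  refine ⟨e ▸ hint.integral_prod_right, ?_⟩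
  rw [← (measurePreserving_perpCoord hu).setIntegral_preimage_emb hme, ← integral_indicator hCm,
    Measure.volume_eq_prod, integral_prod_symm _ hint, e]

/-- Transfer of an integral over a fibre. -/
lemma fib_translate {c : ℝ} {I J : Set ℝ} (h : ∀ t, t ∈ J ↔ t + c ∈ I)
    (g : ℝ → ℝ) : ∫ t in J, g (t + c) = ∫ t in I, g t := by
  have : J = (fun t => t + c) ⁻¹' I := Set.ext h
  rw [this]
  exact (measurePreserving_add_right volume c).setIntegral_preimage_emb
    (measurableEmbedding_addRight c) g I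

/-- Reflection of an integral over a symmetric fibre. -/
lemma fib_reflect {J : Set ℝ} (h : ∀ t, t ∈ J ↔ -t ∈ J) (g : ℝ → ℝ) :
    ∫ t in J, g (-t) = ∫ t in J, g t := by
  conv_lhs => rw [show J = (fun t : ℝ => -t) ⁻¹' J from Set.ext h]
  exact (Measure.measurePreserving_neg volume).setIntegral_preimage_emb
    (Homeomorph.neg ℝ).measurableEmbedding g J

/-- Steiner symmetrisation preserves the volume. -/
theorem vol_steiner (hCc : IsCompact C) (hC : Convex ℝ C) (hu : ‖u‖ = 1) :
    vol (steiner u C) = vol C := by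
  have h1 : ∀ S : Set (E n), vol S = ∫ _x in S, (1 : ℝ) := fun S => by
    simp [vol, Measure.real]
  rw [h1, h1, (integral_fib (isCompact_steiner hCc u) hu continuous_const).2,
    (integral_fib hCc hu continuous_const).2]
  refine integral_congr_ae (.of_forall fun y => ?_)
  obtain ⟨c, hc⟩ := exists_centre hCc hC hu y
  exact fib_translate (fun t => (hc t).1) fun _ => (1 : ℝ)

end Vale.Agent.P237.Centroid
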