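import Vale.Agent.P237.Centroid.Variation
import Vale.Agent.P237.Centroid.Steiner

/-!
# P237: moment bodies and their behaviour under Steiner symmetrisation

`mom C p φ = (avg_C |φ| ^ p) ^ (1/p)` and `momBody C p` is the body below this function.
Splitting `|a + b| ^ p` fibre by fibre gives `momBody (steiner u C) ⊆ steiner u (momBody C)`.
-/

namespace Vale.Agent.P237.Centroid

open MeasureTheory Set Filter Topology Metric
open scoped Pointwise RealInnerProductSpace ENNReal

variable {n : ℕ} {C : Set (E n)} {u : E n} {p : ℕ}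

/-- The `p`-th absolute moment norm of `φ` over `C`. -/
noncomputable def mom (C : Set (E n)) (p : ℕ) (φ : E n →L[ℝ] ℝ) : ℝ :=
  ((∫ x in C, |φ x| ^ p) / vol C) ^ (1 / (p : ℝ))

/-- The convex body below the moment norm. -/
def momBody (C : Set (E n)) (p : ℕ) : Set (E n) := {z | ∀ φ : E n →L[ℝ] ℝ, φ z ≤ mom C p φ}

lemma moment_nonneg (C : Set (E n)) (p : ℕ) (φ : E n →L[ℝ] ℝ) :
    0 ≤ (∫ x in C, |φ x| ^ p) / vol C :=
  div_nonneg (integral_nonneg fun x => pow_nonneg (abs_nonneg _) p) (vol_nonneg C)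

lemma mom_nonneg (C : Set (E n)) (p : ℕ) (φ : E n →L[ℝ] ℝ) : 0 ≤ mom C p φ :=
  Real.rpow_nonneg (moment_nonneg C p φ) _

lemma mom_pow (hp : 1 ≤ p) (C : Set (E n)) (φ : E n →L[ℝ] ℝ) :
    mom C p φ ^ p = (∫ x in C, |φ x| ^ p) / vol C := by
  rw [mom, one_div, Real.rpow_inv_natCast_pow (moment_nonneg C p φ) (by omega)]

lemma mom_le (hp : 1 ≤ p) {c : ℝ} (hc : 0 ≤ c) {φ : E n →L[ℝ] ℝ}
    (h : (∫ x in C, |φ x| ^ p) / vol C ≤ c ^ p) : mom C p φ ≤ c := by
  rw [mom, one_div]
  calc _ ≤ (c ^ p) ^ ((p : ℝ)⁻¹) := Real.rpow_le_rpow (moment_nonneg C p φ) h (by positivity)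
    _ = c := Real.pow_rpow_inv_natCast hc (by omega)

lemma mom_smul (hp : 1 ≤ p) (C : Set (E n)) (s : ℝ) (φ : E n →L[ℝ] ℝ) :
    mom C p (s • φ) = |s| * mom C p φ := by
  have e : ∫ x in C, |(s • φ) x| ^ p = |s| ^ p * ∫ x in C, |φ x| ^ p := by
    rw [← integral_const_mul]
    simp [abs_mul, mul_pow]
  rw [mom, mom, e, mul_div_assoc, Real.mul_rpow (by positivity) (moment_nonneg C p φ), one_div,
    Real.pow_rpow_inv_natCast (abs_nonneg s) (by omega)]

lemma isClosed_momBody (C : Set (E n)) (p : ℕ) : IsClosed (momBody C p) := by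
  simp only [momBody, ofPred_forall]
  exact isClosed_iInter fun φ => isClosed_le φ.continuous continuous_const

lemma convex_momBody (C : Set (E n)) (p : ℕ) : Convex ℝ (momBody C p) := by
  intro x hx y hy a b ha hb hab φ
  simp only [map_add, map_smul, smul_eq_mul]
  calc a * φ x + b * φ y ≤ a * mom C p φ + b * mom C p φ := by gcongr <;> [exact hx φ; exact hy φ]
    _ = mom C p φ := by rw [← add_mul, hab, one_mul]

lemma zero_mem_momBody (C : Set (E n)) (p : ℕ) : (0 : E n) ∈ momBody C p := fun φ => by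
  rw [map_zero]; exact mom_nonneg C p φ

lemma exists_norm_le_momBody (hC : IsCompact C) (hp : 1 ≤ p) :
    ∃ R, ∀ z ∈ momBody C p, ‖z‖ ≤ R := by
  obtain ⟨R, hR⟩ := hC.isBounded.exists_norm_le
  refine ⟨max R 0, fun z hz => ?_⟩
  rcases eq_or_lt_of_le (norm_nonneg z) with h | h
  · rw [← h]; exact le_max_right _ _
  have h1 := hz (innerSL ℝ z)
  rw [innerSL_apply_apply, real_inner_self_eq_norm_sq] at h1
  have h2 : mom C p (innerSL ℝ z) ≤ ‖z‖ * max R 0 := by
    refine mom_le hp (by positivity) ?_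
    rcases eq_or_lt_of_le (vol_nonneg C) with hv | hv
    · rw [← hv, div_zero]; positivity
    rw [div_le_iff₀ hv]
    refine ((le_abs_self _).trans_eq (Real.norm_eq_abs _).symm).trans
      (norm_setIntegral_le_of_norm_le_const (C := (‖z‖ * max R 0) ^ p) hC.measure_lt_top
        fun x hx => ?_)
    rw [Real.norm_eq_abs, abs_of_nonneg (by positivity), innerSL_apply_apply]
    gcongr
    exact (abs_real_inner_le_norm z x).trans
      (mul_le_mul_of_nonneg_left ((hR x hx).trans (le_max_left _ _)) (norm_nonneg z))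
  exact le_of_mul_le_mul_left (by nlinarith [h1.trans h2] : ‖z‖ * ‖z‖ ≤ ‖z‖ * max R 0) h

lemma isCompact_momBody (hC : IsCompact C) (hp : 1 ≤ p) : IsCompact (momBody C p) := by
  obtain ⟨R, hR⟩ := exists_norm_le_momBody hC hp
  exact (isCompact_closedBall (0 : E n) R).of_isClosed_subset (isClosed_momBody C p)
    fun z hz => mem_closedBall_zero_iff.2 (hR z hz)

/-- The support function of the moment body is below the moment norm. -/
lemma suppD_momBody_le (C : Set (E n)) (p : ℕ) (φ : E n →L[ℝ] ℝ) :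
    suppD (momBody C p) φ ≤ mom C p φ :=
  suppD_le ⟨0, zero_mem_momBody C p⟩ fun _ hz => hz φ

/-- Convexity of the power, in split form. -/
lemma split_pow {a b l : ℝ} (hl : 0 < l) (hl1 : l < 1) :
    |a + b| ^ p ≤ l * (|a| / l) ^ p + (1 - l) * (|b| / (1 - l)) ^ p := by
  have h1 : 0 < 1 - l := by linarith
  have h := (convexOn_pow p).2 (show |a| / l ∈ Ici (0 : ℝ) from div_nonneg (abs_nonneg a) hl.le)
    (show |b| / (1 - l) ∈ Ici (0 : ℝ) from div_nonneg (abs_nonneg b) h1.le) hl.le h1.le (by ring)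
  simp only [smul_eq_mul, mul_div_cancel₀ _ hl.ne', mul_div_cancel₀ _ h1.ne'] at h
  exact (pow_le_pow_left₀ (abs_nonneg _) (abs_add_le a b) p).trans h

/-- The coupling inequality. -/
lemma mom_steiner_le (hp : 1 ≤ p) (hC : Body C) (hu : ‖u‖ = 1) {ψ φ₁ φ₂ : E n →L[ℝ] ℝ} {σ τ : ℝ}
    (hσ : σ = 1 ∨ σ = -1) (hτ : τ = 1 ∨ τ = -1) (hz : φ₁ u + φ₂ u = 0)
    (hy : ∀ y : Perp u, ψ y = φ₁ y + φ₂ y) (ht : ψ u = τ * φ₁ u + σ * φ₂ u) :
    mom (steiner u C) p ψ ≤ mom C p φ₁ + mom C p φ₂ := by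
  refine le_of_forall_pos_le_add fun η hη => ?_
  set α := mom C p φ₁ + η / 2 with hαd
  set β := mom C p φ₂ + η / 2 with hβd
  have hα : 0 < α := by have := mom_nonneg C p φ₁; positivity
  have hβ : 0 < β := by have := mom_nonneg C p φ₂; positivity
  have hv : 0 < vol C := hC.vol_pos
  suffices h : mom (steiner u C) p ψ ≤ α + β by linarith
  refine mom_le hp (by positivity) ?_
  set l := α / (α + β) with hl
  have hl0 : 0 < l := by positivity
  have hl1 : l < 1 := by rw [hl, div_lt_one (by positivity)]; linarith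
  have hl2 : 1 - l = β / (α + β) := by rw [hl]; field_simp; ring
  set G₁ : E n → ℝ := fun x => l * (|φ₁ x| / l) ^ p with hG₁
  set G₂ : E n → ℝ := fun x => (1 - l) * (|φ₂ x| / (1 - l)) ^ p with hG₂
  have c1 : Continuous G₁ := by fun_prop
  have c2 : Continuous G₂ := by fun_prop
  have c0 : Continuous fun x => |ψ x| ^ p := by fun_prop
  have hSc := isCompact_steiner hC.compact u
  have key : ∫ x in steiner u C, |ψ x| ^ p ≤ (∫ x in C, G₁ x) + ∫ x in C, G₂ x := by
    obtain ⟨i0, e0⟩ := integral_fib hSc hu c0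
    obtain ⟨i1, e1⟩ := integral_fib hC.compact hu c1
    obtain ⟨i2, e2⟩ := integral_fib hC.compact hu c2
    rw [e0, e1, e2, ← integral_add i1 i2]
    refine integral_mono i0 (i1.add i2) fun y => ?_
    obtain ⟨c, hc⟩ := exists_centre hC.compact hC.convex hu y
    set J := fib (steiner u C) u y with hJ
    have hJc : IsCompact J := isCompact_fib hSc hu y
    have tr : ∀ (G : E n → ℝ) (ρ : ℝ), (ρ = 1 ∨ ρ = -1) →
        ∫ t in J, G (perpCoord u (ρ * t + c, y)) = ∫ t in fib C u y, G (perpCoord u (t, y)) := by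
      intro G ρ hρ
      rw [← fib_translate (fun t => (hc t).1) fun t => G (perpCoord u (t, y))]
      rcases hρ with rfl | rfl
      · simp only [one_mul]
      · conv_rhs => rw [← fib_reflect (fun t => (hc t).2)]
        simp only [neg_mul, one_mul]
    show ∫ t in J, |ψ (perpCoord u (t, y))| ^ p ≤
      (∫ t in fib C u y, G₁ (perpCoord u (t, y))) + ∫ t in fib C u y, G₂ (perpCoord u (t, y))
    rw [← tr G₁ τ hτ, ← tr G₂ σ hσ]
    have cp : ∀ ρ : ℝ, Continuous fun t : ℝ => perpCoord u (ρ * t + c, y) := fun ρ =>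
      (continuous_perpCoord u).comp (by fun_prop)
    refine (setIntegral_mono_on ?_ ?_ hJc.isClosed.measurableSet fun t _ => ?_).trans_eq
      (integral_add ((c1.comp (cp τ)).continuousOn.integrableOn_compact hJc).integrable
        ((c2.comp (cp σ)).continuousOn.integrableOn_compact hJc).integrable)
    · exact (c0.comp ((continuous_perpCoord u).comp (by fun_prop))).continuousOn.integrableOn_compact hJc
    · exact ((c1.comp (cp τ)).add (c2.comp (cp σ))).continuousOn.integrableOn_compact hJc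
    have e : ψ (perpCoord u (t, y)) =
        φ₁ (perpCoord u (τ * t + c, y)) + φ₂ (perpCoord u (σ * t + c, y)) := by
      simp only [perpCoord_def, map_add, map_smul, smul_eq_mul, hy, ht]
      have : c * (φ₁ u + φ₂ u) = 0 := by rw [hz, mul_zero]
      linarith
    rw [e]
    exact split_pow hl0 hl1
  have eG : ∀ (φ : E n →L[ℝ] ℝ) (l : ℝ),
      ∫ x in C, l * (|φ x| / l) ^ p = l * ((∫ x in C, |φ x| ^ p) / l ^ p) := fun φ l => by
    simp only [div_pow]
    rw [integral_const_mul, integral_div]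
  rw [hG₁, hG₂, eG, eG] at key
  rw [vol_steiner hC.compact hC.convex hu, div_le_iff₀ hv]
  refine key.trans ?_
  have b1 : ∫ x in C, |φ₁ x| ^ p ≤ α ^ p * vol C := by
    rw [← div_le_iff₀ hv, ← mom_pow hp]
    exact pow_le_pow_left₀ (mom_nonneg _ _ _) (by linarith) p
  have b2 : ∫ x in C, |φ₂ x| ^ p ≤ β ^ p * vol C := by
    rw [← div_le_iff₀ hv, ← mom_pow hp]
    exact pow_le_pow_left₀ (mom_nonneg _ _ _) (by linarith) p
  calc l * ((∫ x in C, |φ₁ x| ^ p) / l ^ p) + (1 - l) * ((∫ x in C, |φ₂ x| ^ p) / (1 - l) ^ p)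
      ≤ l * (α ^ p * vol C / l ^ p) + (1 - l) * (β ^ p * vol C / (1 - l) ^ p) := by
        have : 0 < 1 - l := by linarith
        gcongr
    _ = (α + β) ^ p * vol C := by
        rw [hl2, hl]
        simp only [div_pow]
        field_simp

/-- The moment body of a symmetrisation lies in the symmetrised moment body. -/
theorem momBody_steiner_subset (hp : 1 ≤ p) (hC : Body C) (hu : ‖u‖ = 1) :
    momBody (steiner u C) p ⊆ steiner u (momBody C p) := by
  intro z hz
  obtain ⟨y, hy⟩ := perpCoord_surj hu z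
  set s := ⟪z, u⟫
  set e : E n →L[ℝ] ℝ := innerSL ℝ u with he
  have heu : e u = 1 := by
    rw [he, innerSL_apply_apply, real_inner_self_eq_norm_sq, hu, one_pow]
  have hey : ∀ w : Perp u, e w = 0 := fun w => by
    rw [he, innerSL_apply_apply, real_inner_comm, inner_perp]
  -- test functionals of value `1` and `-1` at `u`
  have gen : ∀ (φ₁ φ₂ : E n →L[ℝ] ℝ) (τ σ : ℝ), (σ = 1 ∨ σ = -1) → (τ = 1 ∨ τ = -1) →
      φ₁ u + φ₂ u = 0 →
      φ₁ y + φ₂ y + (τ * φ₁ u + σ * φ₂ u) * s ≤ mom C p φ₁ + mom C p φ₂ := by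
    intro φ₁ φ₂ τ σ hσ hτ h0
    refine le_trans (le_of_eq ?_)
      ((hz (φ₁ + φ₂ + ((τ - 1) * φ₁ u + (σ - 1) * φ₂ u) • e)).trans
        (mom_steiner_le hp hC hu hσ hτ h0 (fun w => ?_) ?_))
    · rw [hy, perpCoord_def]
      simp only [map_add, map_smul, add_apply, smul_apply, smul_eq_mul, heu, hey]
      linear_combination (0 : ℝ) * h0
    · simp only [add_apply, smul_apply, smul_eq_mul, hey]
      ring
    · simp only [add_apply, smul_apply, smul_eq_mul, heu]
      ring
  -- bounds on the centre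
  set Lo : Set ℝ :=
    {r | ∃ φ : E n →L[ℝ] ℝ, φ u = -1 ∧ r = φ y + |s| - mom C p φ} with hLo
  have hub : ∀ φ : E n →L[ℝ] ℝ, φ u = 1 → ∀ r ∈ Lo, r ≤ mom C p φ - φ y - |s| := by
    rintro φ hφ r ⟨ψ, hψ, rfl⟩
    rcases abs_choice s with h | h <;> rw [h]
    · have := gen φ ψ 1 (-1) (Or.inr rfl) (Or.inl rfl) (by rw [hφ, hψ]; ring)
      rw [hφ, hψ] at this
      linarith
    · have := gen φ ψ (-1) 1 (Or.inl rfl) (Or.inr rfl) (by rw [hφ, hψ]; ring)
      rw [hφ, hψ] at this
      linarith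
  have hne : Lo.Nonempty := ⟨_, -e, by simp [heu], rfl⟩
  have hbdd : BddAbove Lo := ⟨_, hub e heu⟩
  set c := sSup Lo
  have hmem : ∀ t : ℝ, |t| ≤ |s| → perpCoord u (c + t, y) ∈ momBody C p := by
    intro t ht φ
    obtain ⟨ht1, ht2⟩ := abs_le.1 ht
    rw [perpCoord_def, map_add, map_smul, smul_eq_mul]
    rcases lt_trichotomy (φ u) 0 with h | h | h
    · set a := -(φ u) with ha
      have ha0 : 0 < a := by linarith
      have hu1 : (a⁻¹ • φ) u = -1 := by
        rw [smul_apply, smul_eq_mul, ha]; field_simp [h.ne]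
      have h1 : (a⁻¹ • φ) y + |s| - mom C p (a⁻¹ • φ) ≤ c := le_csSup hbdd ⟨_, hu1, rfl⟩
      rw [mom_smul hp, abs_inv, abs_of_pos ha0, smul_apply, smul_eq_mul] at h1
      have h2 := mul_le_mul_of_nonneg_left h1 ha0.le
      rw [mul_sub, mul_add, ← mul_assoc, ← mul_assoc, mul_inv_cancel₀ ha0.ne', one_mul, one_mul] at h2
      have h3 := mul_le_mul_of_nonneg_left ht1 ha0.le
      have e1 : (c + t) * φ u = -(a * c) - a * t := by rw [ha]; ring
      rw [e1]
      linarith
    · have h1 := gen φ 0 1 1 (Or.inl rfl) (Or.inl rfl) (by simp [h])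
      rw [← zero_smul ℝ φ, mom_smul hp] at h1
      simp [h] at h1 ⊢
      linarith
    · have hu1 : ((φ u)⁻¹ • φ) u = 1 := by
        rw [smul_apply, smul_eq_mul, inv_mul_cancel₀ h.ne']
      have h1 : c ≤ mom C p ((φ u)⁻¹ • φ) - ((φ u)⁻¹ • φ) y - |s| := csSup_le hne (hub _ hu1)
      rw [mom_smul hp, abs_inv, abs_of_pos h, smul_apply, smul_eq_mul] at h1
      have h2 := mul_le_mul_of_nonneg_left h1 h.le
      rw [mul_sub, mul_sub, ← mul_assoc, ← mul_assoc, mul_inv_cancel₀ h.ne', one_mul, one_mul] at h2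
      have h3 := mul_le_mul_of_nonneg_left ht2 h.le
      have e1 : (c + t) * φ u = φ u * c + φ u * t := by ring
      rw [e1]
      linarith
  rw [hy]
  exact (mem_fib_steiner hu).2 ⟨c + s, hmem s le_rfl, c + -s, hmem (-s) (by rw [abs_neg]), by ring⟩

/-- Steiner symmetrisation does not increase the volume of the moment body. -/
theorem vol_momBody_steiner_le (hp : 1 ≤ p) (hC : Body C) (hu : ‖u‖ = 1) :
    vol (momBody (steiner u C) p) ≤ vol (momBody C p) := by
  rw [← vol_steiner (isCompact_momBody hC.compact hp) (convex_momBody C p) hu]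
  exact vol_mono (isCompact_steiner (isCompact_momBody hC.compact hp) u)
    (momBody_steiner_subset hp hC hu)

end Vale.Agent.P237.Centroid
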