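import Vale.Agent.P237.Centroid.Moments

/-!
# P237: bodies below a norm and Steiner symmetrisation

If the norm `N'` on functionals is coupled to `N` across the hyperplane orthogonal to `u`, then the
body below `N'` lies in the Steiner symmetrisation of the body below `N`.
-/

namespace Vale.Agent.P237.Centroid

open MeasureTheory Set Filter Topology Metric
open scoped Pointwise RealInnerProductSpace ENNReal NNReal

variable {n : ℕ} {u : E n}

/-- The convex body below a function of functionals. -/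
def normBody (N : (E n →L[ℝ] ℝ) → ℝ) : Set (E n) := {z | ∀ φ : E n →L[ℝ] ℝ, φ z ≤ N φ}

lemma isClosed_normBody (N : (E n →L[ℝ] ℝ) → ℝ) : IsClosed (normBody N) := by
  simp only [normBody, ofPred_forall]
  exact isClosed_iInter fun φ => isClosed_le φ.continuous continuous_const

lemma convex_normBody (N : (E n →L[ℝ] ℝ) → ℝ) : Convex ℝ (normBody N) := by
  intro x hx y hy s t hs ht hst φ
  simp only [map_add, map_smul, smul_eq_mul]
  calc s * φ x + t * φ y ≤ s * N φ + t * N φ := by gcongr <;> [exact hx φ; exact hy φ]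
    _ = N φ := by rw [← add_mul, hst, one_mul]

lemma zero_mem_normBody {N : (E n →L[ℝ] ℝ) → ℝ} (h : ∀ φ, 0 ≤ N φ) : (0 : E n) ∈ normBody N :=
  fun φ => by rw [map_zero]; exact h φ

lemma isCompact_normBody {N : (E n →L[ℝ] ℝ) → ℝ} {R : ℝ} (hR0 : 0 ≤ R)
    (h : ∀ φ, N φ ≤ ‖φ‖ * R) : IsCompact (normBody N) := by
  refine (isCompact_closedBall (0 : E n) R).of_isClosed_subset (isClosed_normBody N)
    fun z hz => mem_closedBall_zero_iff.2 ?_
  rcases eq_or_lt_of_le (norm_nonneg z) with h' | h'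
  · rw [← h']; exact hR0
  have h1 := (hz (innerSL ℝ z)).trans (h (innerSL ℝ z))
  rw [innerSL_apply_apply, real_inner_self_eq_norm_sq, innerSL_apply_norm] at h1
  exact le_of_mul_le_mul_left (by nlinarith [h1]) h'

/-- The support function of the body below `N` is below `N`. -/
lemma suppD_normBody_le {N : (E n →L[ℝ] ℝ) → ℝ} (h : ∀ φ, 0 ≤ N φ) (φ : E n →L[ℝ] ℝ) :
    suppD (normBody N) φ ≤ N φ :=
  suppD_le ⟨0, zero_mem_normBody h⟩ fun _ hz => hz φ

/-- The body below a coupled norm lies in the symmetrised body. -/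
theorem normBody_steiner_subset (hu : ‖u‖ = 1) {N N' : (E n →L[ℝ] ℝ) → ℝ}
    (hsmul : ∀ (s : ℝ) (φ : E n →L[ℝ] ℝ), N (s • φ) = |s| * N φ)
    (hcouple : ∀ (ψ φ₁ φ₂ : E n →L[ℝ] ℝ) (σ τ : ℝ), (σ = 1 ∨ σ = -1) → (τ = 1 ∨ τ = -1) →
      φ₁ u + φ₂ u = 0 → (∀ y : Perp u, ψ y = φ₁ y + φ₂ y) →
      ψ u = τ * φ₁ u + σ * φ₂ u → N' ψ ≤ N φ₁ + N φ₂) :
    normBody N' ⊆ steiner u (normBody N) := by
  intro z hz
  obtain ⟨y, hy⟩ := perpCoord_surj hu z
  set s := ⟪z, u⟫
  set e : E n →L[ℝ] ℝ := innerSL ℝ u with he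
  have heu : e u = 1 := by
    rw [he, innerSL_apply_apply, real_inner_self_eq_norm_sq, hu, one_pow]
  have hey : ∀ w : Perp u, e w = 0 := fun w => by
    rw [he, innerSL_apply_apply, real_inner_comm, inner_perp]
  -- test functionals of value `1` and `-1` at `u`
  have gen : ∀ (φ₁ φ₂ : E n →L[ℝ] ℝ) (τ σ : ℝ), (σ = 1 ∨ σ = -1) → (τ = 1 ∨ τ = -1) →
      φ₁ u + φ₂ u = 0 →
      φ₁ y + φ₂ y + (τ * φ₁ u + σ * φ₂ u) * s ≤ N φ₁ + N φ₂ := by
    intro φ₁ φ₂ τ σ hσ hτ h0
    refine le_trans (le_of_eq ?_)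
      ((hz (φ₁ + φ₂ + ((τ - 1) * φ₁ u + (σ - 1) * φ₂ u) • e)).trans
        (hcouple _ _ _ _ _ hσ hτ h0 (fun w => ?_) ?_))
    · rw [hy, perpCoord_def]
      simp only [map_add, map_smul, add_apply, smul_apply, smul_eq_mul, heu, hey]
      linear_combination (0 : ℝ) * h0
    · simp only [add_apply, smul_apply, smul_eq_mul, hey]
      ring
    · simp only [add_apply, smul_apply, smul_eq_mul, heu]
      ring
  -- bounds on the centre
  set Lo : Set ℝ :=
    {r | ∃ φ : E n →L[ℝ] ℝ, φ u = -1 ∧ r = φ y + |s| - N φ} with hLo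
  have hub : ∀ φ : E n →L[ℝ] ℝ, φ u = 1 → ∀ r ∈ Lo, r ≤ N φ - φ y - |s| := by
    rintro φ hφ r ⟨ψ, hψ, rfl⟩
    rcases abs_choice s with h | h <;> rw [h]
    · have := gen φ ψ 1 (-1) (Or.inr rfl) (Or.inl rfl) (by rw [hφ, hψ]; ring)
      rw [hφ, hψ] at this
      linarith
    · have := gen φ ψ (-1) 1 (Or.inl rfl) (Or.inr rfl) (by rw [hφ, hψ]; ring)
      rw [hφ, hψ] at this
      linarith
  have hne : Lo.Nonempty := ⟨_, -e, by simp [heu], rfl⟩
  have hbdd : BddAbove Lo := ⟨_, hub e heu⟩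
  set c := sSup Lo
  have hmem : ∀ t : ℝ, |t| ≤ |s| → perpCoord u (c + t, y) ∈ normBody N := by
    intro t ht φ
    obtain ⟨ht1, ht2⟩ := abs_le.1 ht
    rw [perpCoord_def, map_add, map_smul, smul_eq_mul]
    rcases lt_trichotomy (φ u) 0 with h | h | h
    · set a' := -(φ u) with ha'
      have ha0 : 0 < a' := by linarith
      have hu1 : (a'⁻¹ • φ) u = -1 := by
        rw [smul_apply, smul_eq_mul, ha']; field_simp [h.ne]
      have h1 : (a'⁻¹ • φ) y + |s| - N (a'⁻¹ • φ) ≤ c := le_csSup hbdd ⟨_, hu1, rfl⟩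
      rw [hsmul, abs_inv, abs_of_pos ha0, smul_apply, smul_eq_mul] at h1
      have h2 := mul_le_mul_of_nonneg_left h1 ha0.le
      rw [mul_sub, mul_add, ← mul_assoc, ← mul_assoc, mul_inv_cancel₀ ha0.ne', one_mul, one_mul] at h2
      have h3 := mul_le_mul_of_nonneg_left ht1 ha0.le
      have e1 : (c + t) * φ u = -(a' * c) - a' * t := by rw [ha']; ring
      rw [e1]
      linarith
    · have h1 := gen φ 0 1 1 (Or.inl rfl) (Or.inl rfl) (by simp [h])
      rw [← zero_smul ℝ φ, hsmul] at h1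
      simp [h] at h1 ⊢
      linarith
    · have hu1 : ((φ u)⁻¹ • φ) u = 1 := by
        rw [smul_apply, smul_eq_mul, inv_mul_cancel₀ h.ne']
      have h1 : c ≤ N ((φ u)⁻¹ • φ) - ((φ u)⁻¹ • φ) y - |s| := csSup_le hne (hub _ hu1)
      rw [hsmul, abs_inv, abs_of_pos h, smul_apply, smul_eq_mul] at h1
      have h2 := mul_le_mul_of_nonneg_left h1 h.le
      rw [mul_sub, mul_sub, ← mul_assoc, ← mul_assoc, mul_inv_cancel₀ h.ne', one_mul, one_mul] at h2
      have h3 := mul_le_mul_of_nonneg_left ht2 h.le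
      have e1 : (c + t) * φ u = φ u * c + φ u * t := by ring
      rw [e1]
      linarith
  rw [hy]
  exact (mem_fib_steiner hu).2 ⟨c + s, hmem s le_rfl, c + -s, hmem (-s) (by rw [abs_neg]), by ring⟩

end Vale.Agent.P237.Centroid
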