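import Vale.Agent.P237.Centroid.HingeSlice
import Vale.Agent.P237.Centroid.NormBody

/-!
# P237: the cone average of the top mass of the conormals

`topMass C p φ = inf_{b ≥ 0} (b p + avg_C (|φ| - b)₊)` is the average over `C` of `|φ|` restricted to
the portion `p` of `C` where it is largest. It is a norm in `φ`, the body below it does not grow
under Steiner symmetrisation, and by Minkowski's first inequality its average over the conormals of
`K` is at least its value for a unit vector on the unit ball.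
-/

namespace Vale.Agent.P237.Centroid

open MeasureTheory Set Filter Topology Metric
open scoped Pointwise RealInnerProductSpace ENNReal NNReal

variable {n : ℕ} {C K : Set (E n)} {u : E n} {p b : ℝ}

/-- The mass of the top portion `p` of `|φ|` on `C`. -/
noncomputable def topMass (C : Set (E n)) (p : ℝ) (φ : E n →L[ℝ] ℝ) : ℝ :=
  sInf ((fun b => b * p + hingeInt C b φ / vol C) '' Ici 0)

lemma hingeInt_nonneg (C : Set (E n)) (b : ℝ) (φ : E n →L[ℝ] ℝ) : 0 ≤ hingeInt C b φ :=
  integral_nonneg fun _ => le_max_right _ _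

lemma topTerm_nonneg (hp : 0 ≤ p) (hb : 0 ≤ b) (C : Set (E n)) (φ : E n →L[ℝ] ℝ) :
    0 ≤ b * p + hingeInt C b φ / vol C :=
  add_nonneg (mul_nonneg hb hp) (div_nonneg (hingeInt_nonneg C b φ) (vol_nonneg C))

lemma topMass_le (hp : 0 ≤ p) (hb : 0 ≤ b) (φ : E n →L[ℝ] ℝ) :
    topMass C p φ ≤ b * p + hingeInt C b φ / vol C :=
  csInf_le ⟨0, by rintro _ ⟨s, hs, rfl⟩; exact topTerm_nonneg hp hs C φ⟩ ⟨b, hb, rfl⟩

lemma le_topMass {r : ℝ} {φ : E n →L[ℝ] ℝ}
    (h : ∀ b, 0 ≤ b → r ≤ b * p + hingeInt C b φ / vol C) : r ≤ topMass C p φ :=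
  le_csInf (nonempty_Ici.image _) (by rintro _ ⟨s, hs, rfl⟩; exact h s hs)

lemma topMass_nonneg (hp : 0 ≤ p) (C : Set (E n)) (φ : E n →L[ℝ] ℝ) : 0 ≤ topMass C p φ :=
  le_topMass fun _ hb => topTerm_nonneg hp hb C φ

lemma exists_topMass_lt (φ : E n →L[ℝ] ℝ) {r : ℝ} (h : topMass C p φ < r) :
    ∃ b, 0 ≤ b ∧ b * p + hingeInt C b φ / vol C < r := by
  obtain ⟨_, ⟨b, hb, rfl⟩, hlt⟩ := exists_lt_of_csInf_lt (nonempty_Ici.image _) h
  exact ⟨b, hb, hlt⟩

lemma topMass_le_norm (hp : 0 ≤ p) (hC : Body C) {R : ℝ} (hR : ∀ x ∈ C, ‖x‖ ≤ R)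
    (φ : E n →L[ℝ] ℝ) : topMass C p φ ≤ ‖φ‖ * R := by
  refine (topMass_le hp le_rfl φ).trans ?_
  rw [zero_mul, zero_add, div_le_iff₀ hC.vol_pos]
  refine (hingeInt_le_abs hC.compact le_rfl φ).trans (((le_abs_self _).trans_eq
    (Real.norm_eq_abs _).symm).trans
      (norm_setIntegral_le_of_norm_le_const (C := ‖φ‖ * R) hC.compact.measure_lt_top fun x hx => ?_))
  rw [Real.norm_eq_abs, abs_abs, ← Real.norm_eq_abs]
  exact (φ.le_opNorm x).trans (mul_le_mul_of_nonneg_left (hR x hx) (norm_nonneg _))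

lemma hingeInt_smul (C : Set (E n)) (s b : ℝ) (φ : E n →L[ℝ] ℝ) :
    hingeInt C (|s| * b) (s • φ) = |s| * hingeInt C b φ := by
  rw [hingeInt, hingeInt, ← integral_const_mul]
  refine integral_congr_ae (ae_of_all _ fun x => ?_)
  simp only [smul_apply, smul_eq_mul, abs_mul]
  rw [mul_max_of_nonneg _ _ (abs_nonneg s), mul_zero, mul_sub]

lemma topMass_smul_le (hp : 0 ≤ p) (C : Set (E n)) (s : ℝ) (φ : E n →L[ℝ] ℝ) :
    topMass C p (s • φ) ≤ |s| * topMass C p φ := by
  rcases eq_or_ne s 0 with rfl | hs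
  · refine (topMass_le hp le_rfl _).trans (le_of_eq ?_)
    simp [hingeInt]
  · rw [← div_le_iff₀' (abs_pos.2 hs)]
    refine le_topMass fun b hb => ?_
    rw [div_le_iff₀' (abs_pos.2 hs)]
    refine (topMass_le hp (mul_nonneg (abs_nonneg s) hb) _).trans (le_of_eq ?_)
    rw [hingeInt_smul]
    ring

lemma topMass_smul (hp : 0 ≤ p) (C : Set (E n)) (s : ℝ) (φ : E n →L[ℝ] ℝ) :
    topMass C p (s • φ) = |s| * topMass C p φ := by
  refine le_antisymm (topMass_smul_le hp C s φ) ?_
  rcases eq_or_ne s 0 with rfl | hs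
  · simp [topMass_nonneg hp]
  have h := topMass_smul_le hp C s⁻¹ (s • φ)
  rw [inv_smul_smul₀ hs, abs_inv, le_inv_mul_iff₀ (abs_pos.2 hs)] at h
  exact h

lemma topMass_add_le (hp : 0 ≤ p) (hC : IsCompact C) (φ ψ : E n →L[ℝ] ℝ) :
    topMass C p (φ + ψ) ≤ topMass C p φ + topMass C p ψ := by
  refine le_of_forall_pos_le_add fun η hη => ?_
  obtain ⟨b, hb, h1⟩ := exists_topMass_lt φ (lt_add_of_pos_right (topMass C p φ) (half_pos hη))
  obtain ⟨c, hc, h2⟩ := exists_topMass_lt ψ (lt_add_of_pos_right (topMass C p ψ) (half_pos hη))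
  have h3 : hingeInt C (b + c) (φ + ψ) ≤ hingeInt C b φ + hingeInt C c ψ := by
    simp only [hingeInt]
    rw [← integral_add (integrableOn_hinge hC b φ) (integrableOn_hinge hC c ψ)]
    refine setIntegral_mono (integrableOn_hinge hC _ _)
      ((integrableOn_hinge hC b φ).add (integrableOn_hinge hC c ψ)) fun x => ?_
    simp only [add_apply]
    refine max_le ?_ (add_nonneg (le_max_right _ _) (le_max_right _ _))
    linarith [le_max_left (|φ x| - b) 0, le_max_left (|ψ x| - c) 0, abs_add_le (φ x) (ψ x)]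
  have h4 := div_le_div_of_nonneg_right h3 (vol_nonneg C)
  rw [add_div] at h4
  linarith [topMass_le hp (add_nonneg hb hc) (φ + ψ) (C := C), add_mul b c p]

lemma continuous_topMass (hp : 0 ≤ p) (hC : Body C) :
    Continuous fun φ : E n →L[ℝ] ℝ => topMass C p φ := by
  obtain ⟨R, hR⟩ := hC.compact.isBounded.exists_norm_le
  refine (LipschitzWith.of_le_add_mul (max R 0).toNNReal fun φ ψ => ?_).continuous
  have h := topMass_add_le hp hC.compact (φ - ψ) ψ
  rw [sub_add_cancel] at h
  have h' := topMass_le_norm hp hC (fun x hx => (hR x hx).trans (le_max_left R 0)) (φ - ψ)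
  rw [Real.coe_toNNReal _ (le_max_right _ _), dist_eq_norm]
  linarith [mul_comm ‖φ - ψ‖ (max R 0)]

lemma isCompact_topBody (hp : 0 ≤ p) (hC : Body C) : IsCompact (normBody (topMass C p)) := by
  obtain ⟨R, hR⟩ := hC.compact.isBounded.exists_norm_le
  exact isCompact_normBody (le_max_right R 0) fun φ =>
    topMass_le_norm hp hC (fun x hx => (hR x hx).trans (le_max_left R 0)) φ

/-- The coupling inequality. -/
lemma topMass_steiner_le (hp : 0 ≤ p) (hC : Body C) (hu : ‖u‖ = 1) {ψ φ₁ φ₂ : E n →L[ℝ] ℝ}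
    {σ τ : ℝ} (hσ : σ = 1 ∨ σ = -1) (hτ : τ = 1 ∨ τ = -1) (hz : φ₁ u + φ₂ u = 0)
    (hy : ∀ y : Perp u, ψ y = φ₁ y + φ₂ y) (ht : ψ u = τ * φ₁ u + σ * φ₂ u) :
    topMass (steiner u C) p ψ ≤ topMass C p φ₁ + topMass C p φ₂ := by
  refine le_of_forall_pos_le_add fun η hη => ?_
  obtain ⟨b, hb, h1⟩ := exists_topMass_lt φ₁ (lt_add_of_pos_right (topMass C p φ₁) (half_pos hη))
  obtain ⟨c, hc, h2⟩ := exists_topMass_lt φ₂ (lt_add_of_pos_right (topMass C p φ₂) (half_pos hη))
  have h3 := div_le_div_of_nonneg_right (hingeInt_steiner_le hC hu hσ hτ hz hy ht b c) (vol_nonneg C)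
  have h5 := topMass_le (C := steiner u C) hp (add_nonneg hb hc) ψ
  rw [vol_steiner hC.compact hC.convex hu] at h5
  rw [add_div] at h3
  linarith [add_mul b c p]

/-- Steiner symmetrisation does not increase the volume of the body below the top mass. -/
theorem vol_topBody_steiner_le (hp : 0 ≤ p) (hC : Body C) (hu : ‖u‖ = 1) :
    vol (normBody (topMass (steiner u C) p)) ≤ vol (normBody (topMass C p)) := by
  rw [← vol_steiner (isCompact_topBody hp hC) (convex_normBody _) hu]
  exact vol_mono (isCompact_steiner (isCompact_topBody hp hC) u)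
    (normBody_steiner_subset hu (topMass_smul hp C) fun _ _ _ _ _ hσ hτ hz hy ht =>
      topMass_steiner_le hp hC hu hσ hτ hz hy ht)

lemma topMass_sandwich (hp : 0 ≤ p) {L : Set (E n)} (hK : Body K) (hL : Body L)
    {c : ℝ} (hc : 1 ≤ c) (hLK : L ⊆ c • K) (hKL : K ⊆ c • L) (φ : E n →L[ℝ] ℝ) :
    topMass L p φ ≤ c ^ (2 * n + 1) * topMass K p φ := by
  have hc0 : 0 < c := by linarith
  set q := c ^ (2 * n + 1) with hq
  rw [← div_le_iff₀' (by positivity : 0 < q)]
  refine le_topMass fun b hb => ?_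
  rw [div_le_iff₀' (by positivity : 0 < q)]
  have hcq : c ≤ q := le_self_pow₀ hc (by omega)
  have hV := hK.vol_pos
  have hV' := hL.vol_pos
  refine (topMass_le hp (mul_nonneg hc0.le hb) φ).trans ?_
  have h2 : hingeInt L (c * b) φ ≤ hingeInt (c • K) (c * b) φ :=
    setIntegral_mono_set (integrableOn_hinge (hK.compact.smul c) _ φ)
      (ae_of_all _ fun x => le_max_right _ _) hLK.eventuallyLE
  have h3 : hingeInt (c • K) (c * b) φ = c ^ n * (c * hingeInt K b φ) := by
    have h := Measure.setIntegral_comp_smul_of_pos (volume : Measure (E n))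
      (fun x => max (|φ x| - c * b) 0) K hc0
    have e : ∀ x, max (|φ (c • x)| - c * b) 0 = c * max (|φ x| - b) 0 := fun x => by
      rw [map_smul, smul_eq_mul, abs_mul, abs_of_pos hc0, mul_max_of_nonneg _ _ hc0.le, mul_zero]
      congr 1
      ring
    simp only [e, integral_const_mul, finrank_euclideanSpace_fin, smul_eq_mul] at h
    simp only [hingeInt]
    rw [h, mul_inv_cancel_left₀ (pow_pos hc0 n).ne']
  have h5 := vol_sandwich L K hL hK c hc hKL hLK
  have hH := hingeInt_nonneg K b φ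
  have h6 : hingeInt L (c * b) φ / vol L ≤ q * (hingeInt K b φ / vol K) := by
    rw [div_le_iff₀ hV', mul_assoc, div_mul_eq_mul_div, mul_div_assoc', le_div_iff₀ hV]
    calc hingeInt L (c * b) φ * vol K ≤ c ^ n * (c * hingeInt K b φ) * (c ^ n * vol L) :=
          mul_le_mul (h3 ▸ h2) h5 hV.le (by positivity)
      _ = q * (hingeInt K b φ * vol L) := by rw [hq]; ring
  have h7 : c * b * p ≤ q * (b * p) := by
    rw [mul_assoc]; exact mul_le_mul_of_nonneg_right hcq (mul_nonneg hb hp)
  linarith [mul_add q (b * p) (hingeInt K b φ / vol K)]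

lemma topBody_sandwich (hp : 0 ≤ p) (K L : Set (E n)) (hK : Body K) (hL : Body L)
    (c : ℝ) (hc : 1 ≤ c) (hLK : L ⊆ c • K) (hKL : K ⊆ c • L) :
    vol (normBody (topMass L p)) ≤ c ^ ((2 * n + 1) * n) * vol (normBody (topMass K p)) := by
  have hc0 : 0 < c := by linarith
  have hsub : normBody (topMass L p) ⊆ (c ^ (2 * n + 1)) • normBody (topMass K p) := by
    intro z hz
    refine ⟨(c ^ (2 * n + 1))⁻¹ • z, fun φ => ?_, smul_inv_smul₀ (by positivity) z⟩
    rw [map_smul, smul_eq_mul, inv_mul_le_iff₀ (by positivity)]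
    exact (hz φ).trans (topMass_sandwich hp hK hL hc hLK hKL φ)
  refine (vol_mono ((isCompact_topBody hp hK).smul _) hsub).trans_eq ?_
  rw [vol_smul, abs_of_pos (by positivity), ← pow_mul]

/-- The top mass on a ball is its value on the unit ball for a unit vector, scaled. -/
lemma topMass_ball_le {ρ : ℝ} (hρ : 0 < ρ) {e : E n} (he : ‖e‖ = 1) (hp : 0 ≤ p) (v : E n) :
    topMass (closedBall (0 : E n) 1) p (innerSL ℝ e) * (ρ * ‖v‖) ≤
      topMass (closedBall (0 : E n) ρ) p (innerSL ℝ v) := by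
  rcases eq_or_ne v 0 with rfl | hv
  · simp [topMass_nonneg hp]
  have hs : 0 < ρ * ‖v‖ := mul_pos hρ (norm_pos_iff.2 hv)
  refine le_topMass fun b hb => ?_
  rw [← le_div_iff₀ hs]
  refine (topMass_le hp (div_nonneg hb hs.le) _).trans (le_of_eq ?_)
  have hB := (body_closedBall (n := n) one_pos).vol_pos.ne'
  have h := hingeInt_ball v e he hρ (b / (ρ * ‖v‖))
  rw [div_mul_cancel₀ _ hs.ne'] at h
  have hvol : vol (closedBall (0 : E n) ρ) = ρ ^ n * vol (closedBall (0 : E n) 1) := by
    rw [show closedBall (0 : E n) ρ = ρ • closedBall (0 : E n) 1 by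
      rw [_root_.smul_closedBall _ _ zero_le_one, smul_zero, Real.norm_of_nonneg hρ.le, mul_one],
      vol_smul, abs_of_pos hρ]
  rw [h, hvol]
  have hvn : ‖v‖ ≠ 0 := norm_ne_zero_iff.2 hv
  field_simp

/-- **Step (B′).** The cone average of the top mass of the conormals is at least that of the unit
ball. -/
theorem avg_topMass_normal_ge (hn : 1 ≤ n) (hp : 0 ≤ p) (hK : SymBody K)
    (h0 : (0 : E n) ∈ interior K) {e : E n} (he : ‖e‖ = 1) :
    IntegrableOn (fun x => topMass K p (fderiv ℝ (gauge K) x)) K ∧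
      topMass (closedBall (0 : E n) 1) p (innerSL ℝ e) * vol K ≤
        ∫ x in K, topMass K p (fderiv ℝ (gauge K) x) := by
  obtain ⟨L, hL⟩ := hK.convex.lipschitz_gauge (Fisher.nhds_zero h0)
  have hcont := continuous_topMass hp hK.toBody
  obtain ⟨M, hM⟩ := (isCompact_closedBall (0 : E n →L[ℝ] ℝ) (L : ℝ)).exists_bound_of_continuousOn
    hcont.continuousOn
  have hint : IntegrableOn (fun x => topMass K p (fderiv ℝ (gauge K) x)) K :=
    Fisher.integrableOn_of_bdd hK.compact
      (hcont.measurable.comp (measurable_fderiv ℝ (gauge K))) fun x _ =>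
        hM _ (mem_closedBall_zero_iff.2 (norm_fderiv_le_of_lipschitz ℝ hL))
  refine ⟨hint, ?_⟩
  set T := topMass (closedBall (0 : E n) 1) p (innerSL ℝ e) with hT
  have hT0 : 0 ≤ T := topMass_nonneg hp _ _
  obtain ⟨ρ, hρ, hvol, hle⟩ := exists_ball_le hn (fun C => vol (normBody (topMass C p)))
    ((2 * n + 1) * n) (topBody_sandwich hp)
    (fun C u hC hu => vol_topBody_steiner_le hp hC hu) hK
  have hsub : T • closedBall (0 : E n) ρ ⊆ normBody (topMass (closedBall (0 : E n) ρ) p) := by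
    rintro _ ⟨z, hz, rfl⟩ φ
    obtain ⟨v, rfl⟩ : ∃ v, innerSL ℝ v = φ := ⟨(InnerProductSpace.toDual ℝ (E n)).symm φ, by
      ext x; simp [InnerProductSpace.toDual_symm_apply]⟩
    rw [map_smul, smul_eq_mul, innerSL_apply_apply]
    refine (mul_le_mul_of_nonneg_left ((real_inner_le_norm v z).trans ?_) hT0).trans
      (topMass_ball_le hρ he hp v)
    rw [mul_comm ρ]
    exact mul_le_mul_of_nonneg_left (mem_closedBall_zero_iff.1 hz) (norm_nonneg v)
  have hlow : T ^ n * vol K ≤ vol (normBody (topMass K p)) := by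
    rw [← hvol, ← abs_of_nonneg hT0, ← vol_smul]
    exact (vol_mono (isCompact_topBody hp (body_closedBall hρ)) hsub).trans hle
  have hV := vol_nonneg K
  have hroot : T * vol K ≤
      vol (normBody (topMass K p)) ^ (1 / (n : ℝ)) * (vol K ^ (1 / (n : ℝ))) ^ (n - 1) := by
    refine le_trans (le_of_eq ?_) (mul_le_mul_of_nonneg_right
      (Real.rpow_le_rpow (by positivity) hlow (by positivity)) (by positivity))
    rw [Real.mul_rpow (by positivity) hV, mul_assoc, ← pow_succ', Nat.sub_add_cancel hn, one_div,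
      Real.rpow_inv_natCast_pow hV (by omega), Real.pow_rpow_inv_natCast hT0 (by omega)]
  refine hroot.trans ((minkowski_first hn hK.toBody h0 (convex_normBody _)
    (isCompact_topBody hp hK.toBody) (zero_mem_normBody (topMass_nonneg hp K))).trans ?_)
  exact integral_mono_of_nonneg (ae_of_all _ fun x =>
    suppD_nonneg (isCompact_topBody hp hK.toBody) (zero_mem_normBody (topMass_nonneg hp K)) _)
    hint (ae_of_all _ fun x => suppD_normBody_le (topMass_nonneg hp K) _)

/-- The top mass of the identity for the weight `A` on `[-1, 1]`. -/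
noncomputable def topSlice (A : ℝ → ℝ) (p : ℝ) : ℝ :=
  sInf ((fun b => b * p + (∫ t in (-1 : ℝ)..1, max (|t| - b) 0 * A t) /
    ∫ t in (-1 : ℝ)..1, A t) '' Ici 0)

/-- The top mass of a normal is the top mass of its section function. -/
theorem topMass_innerSL_eq (hK : SymBody K) (hu : u ≠ 0) (h1 : ∀ x ∈ K, ⟪x, u⟫ ≤ 1) (p : ℝ) :
    topMass K p (innerSL ℝ u) = topSlice (affSlice K u) p := by
  unfold topMass topSlice
  simp only [hingeInt_innerSL hK hu h1, vol_eq_affSlice hK hu h1,
    mul_div_mul_left _ _ (inv_ne_zero (pow_ne_zero n (norm_ne_zero_iff.2 hu)))]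

/-- The top mass on the unit ball is that of the profile `√(1 - t²) ^ m`. -/
theorem topMass_ball_eq {m : ℕ} {e : E (m + 1)} (he : ‖e‖ = 1) (p : ℝ) :
    topMass (closedBall (0 : E (m + 1)) 1) p (innerSL ℝ e) =
      topSlice (fun t => √(1 - t ^ 2) ^ m) p := by
  unfold topMass topSlice
  have h : ∀ b, hingeInt (closedBall (0 : E (m + 1)) 1) b (innerSL ℝ e) /
      vol (closedBall (0 : E (m + 1)) 1) = _ := fun b => ballHinge_eq he b
  simp only [h]

/-- Step (B′) for the section functions. -/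
theorem avg_topSlice_ge {m : ℕ} {K : Set (E (m + 1))} (hp : 0 ≤ p) (hK : SymBody K)
    (h0 : (0 : E (m + 1)) ∈ interior K) :
    IntegrableOn (fun x => topSlice (affSlice K (normalField K x)) p) K ∧
      topSlice (fun t => √(1 - t ^ 2) ^ m) p * vol K ≤
        ∫ x in K, topSlice (affSlice K (normalField K x)) p := by
  set e : E (m + 1) := EuclideanSpace.single 0 1
  have he : ‖e‖ = 1 := by simp [e]
  obtain ⟨h1, h2⟩ := avg_topMass_normal_ge (Nat.le_add_left 1 m) hp hK h0 he
  have hae : (fun x => topMass K p (fderiv ℝ (gauge K) x)) =ᵐ[volume.restrict K]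
      fun x => topSlice (affSlice K (normalField K x)) p := by
    refine ae_restrict_of_ae ((hinge_normal_eq_slice (Nat.le_add_left 1 m) hK).mono fun x hx => ?_)
    show topMass K p (fderiv ℝ (gauge K) x) = _
    rw [fderiv_gauge_eq_innerSL, topMass_innerSL_eq hK hx.1.1 hx.1.2.1]
  exact ⟨h1.congr hae, by rw [← topMass_ball_eq he]; exact h2.trans_eq (integral_congr_ae hae)⟩

end Vale.Agent.P237.Centroid
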