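import Vale.Agent.P237.Fisher
import Vale.Agent.P237.BrunnMinkowski
import Vale.Agent.P237.Basics

/-!
# P237: Minkowski's first inequality at the conormals of a body

With `w` the gauge of `K` and `h_M` the support function on covectors,
`|M| ^ (1/n) |K| ^ (1 - 1/n) ≤ ∫ x in K, h_M (fderiv w x)`: the average of `h_M` over the cone
measure, written without surface area measures.
-/

namespace Vale.Agent.P237.Centroid

open MeasureTheory Set Filter Topology Metric
open scoped Pointwise RealInnerProductSpace ENNReal NNReal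

variable {n : ℕ} {K M : Set (E n)}

/-- The support function of `M` on covectors. -/
noncomputable def suppD (M : Set (E n)) (φ : E n →L[ℝ] ℝ) : ℝ := sSup (φ '' M)

lemma le_suppD (hM : IsCompact M) (φ : E n →L[ℝ] ℝ) {m : E n} (hm : m ∈ M) :
    φ m ≤ suppD M φ :=
  le_csSup (hM.image φ.continuous).bddAbove (mem_image_of_mem φ hm)

lemma suppD_le (hne : M.Nonempty) {φ : E n →L[ℝ] ℝ} {c : ℝ} (h : ∀ m ∈ M, φ m ≤ c) :
    suppD M φ ≤ c :=
  csSup_le (hne.image φ) (by rintro _ ⟨m, hm, rfl⟩; exact h m hm)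

lemma suppD_nonneg (hM : IsCompact M) (h0 : (0 : E n) ∈ M) (φ : E n →L[ℝ] ℝ) :
    0 ≤ suppD M φ := by
  simpa using le_suppD hM φ h0

lemma suppD_add_le (hM : IsCompact M) (hne : M.Nonempty) {r : ℝ} (hr : ∀ m ∈ M, ‖m‖ ≤ r)
    (φ ψ : E n →L[ℝ] ℝ) : suppD M φ ≤ suppD M ψ + ‖φ - ψ‖ * r := by
  refine suppD_le hne fun m hm => ?_
  have h1 := le_suppD hM ψ hm
  have h2 : (φ - ψ) m ≤ ‖φ - ψ‖ * r :=
    ((le_abs_self _).trans ((φ - ψ).le_opNorm m)).trans
      (mul_le_mul_of_nonneg_left (hr m hm) (norm_nonneg _))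
  rw [sub_apply] at h2
  linarith

lemma continuous_suppD (hM : IsCompact M) (hne : M.Nonempty) : Continuous (suppD M) := by
  obtain ⟨r, hr⟩ := hM.isBounded.exists_norm_le
  refine (LipschitzWith.of_le_add_mul (r.toNNReal) fun φ ψ => ?_).continuous
  refine (suppD_add_le hM hne hr φ ψ).trans ?_
  rw [dist_eq_norm, mul_comm (r.toNNReal : ℝ)]
  gcongr
  exact Real.le_coe_toNNReal r

/-- The support of `M` at the conormal of `K` through `x`. -/
noncomputable def normalSupp (K M : Set (E n)) (x : E n) : ℝ := suppD M (fderiv ℝ (gauge K) x)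

lemma normalSupp_smul {c : ℝ} (hc : 0 < c) (x : E n) :
    normalSupp K M (c • x) = normalSupp K M x := by
  rw [normalSupp, normalSupp, Fisher.fderiv_gauge_smul hc]

lemma measurable_normalSupp (hM : IsCompact M) (hne : M.Nonempty) :
    Measurable (normalSupp K M) :=
  (continuous_suppD hM hne).measurable.comp (measurable_fderiv ℝ (gauge K))

lemma exists_bound_normalSupp (hK : Body K) (h0 : (0 : E n) ∈ interior K) (hM : IsCompact M)
    (hM0 : (0 : E n) ∈ M) :
    ∃ B, 0 ≤ B ∧ ∀ x, 0 ≤ normalSupp K M x ∧ normalSupp K M x ≤ B := by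
  obtain ⟨L, hL⟩ := hK.convex.lipschitz_gauge (Fisher.nhds_zero h0)
  obtain ⟨r, hr⟩ := hM.isBounded.exists_norm_le
  have hr0 : 0 ≤ r := by simpa using hr 0 hM0
  refine ⟨L * r, by positivity, fun x => ⟨suppD_nonneg hM hM0 _, suppD_le ⟨0, hM0⟩ fun m hm => ?_⟩⟩
  exact ((le_abs_self _).trans ((fderiv ℝ (gauge K) x).le_opNorm m)).trans
    (mul_le_mul (norm_fderiv_le_of_lipschitz ℝ hL) (hr m hm) (norm_nonneg m) L.coe_nonneg)

/-- Gradient inequality for the gauge. -/
lemma gauge_sub_ge (hK : Body K) (h0 : (0 : E n) ∈ interior K) {y : E n}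
    (hd : DifferentiableAt ℝ (gauge K) y) (v : E n) :
    gauge K y - fderiv ℝ (gauge K) y v ≤ gauge K (y - v) := by
  have hconv : ConvexOn ℝ univ fun s : ℝ => gauge K (y - s • v) := by
    refine ⟨convex_univ, fun a _ b _ p q hp hq hpq => ?_⟩
    have hsub : y - (p • a + q • b) • v = p • (y - a • v) + q • (y - b • v) := by
      obtain rfl : p = 1 - q := by linarith
      module
    simp only [smul_eq_mul] at hsub ⊢
    rw [hsub]
    refine (gauge_add_le hK.convex (absorbent_nhds_zero (Fisher.nhds_zero h0)) _ _).trans ?_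
    rw [gauge_smul_of_nonneg hp, gauge_smul_of_nonneg hq]
    simp only [smul_eq_mul, le_refl]
  have hder : HasDerivAt (fun s : ℝ => gauge K (y - s • v)) (-(fderiv ℝ (gauge K) y v)) 0 := by
    have h1 : HasDerivAt (fun s : ℝ => y - s • v) (-v) 0 := by
      simpa using ((hasDerivAt_id (0 : ℝ)).smul_const v).const_sub y
    have h2 : HasFDerivAt (gauge K) (fderiv ℝ (gauge K) y) (y - (0 : ℝ) • v) := by
      simpa using hd.hasFDerivAt
    simpa [Function.comp_def] using h2.comp_hasDerivAt (0 : ℝ) h1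
  have := hconv.le_slope_of_hasDerivAt (mem_univ (0 : ℝ)) (mem_univ (1 : ℝ)) one_pos hder
  rw [slope_def_field] at this
  simp only [sub_zero, one_smul, zero_smul, div_one] at this
  linarith

/-- Star sets with finitely many radii on cones have exact volume. -/
lemma vol_star_le (hK : Body K) (h0 : (0 : E n) ∈ interior K) {g : E n → ℕ} (hg : Measurable g)
    (hgh : ∀ c : ℝ, 0 < c → ∀ x, g (c • x) = g x) {N : ℕ} (hN : ∀ x, g x ≤ N) {r : ℕ → ℝ}
    (hr : ∀ j, 0 < r j) :
    volume {y | gauge K y ≤ r (g y)} ≤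
      ENNReal.ofReal (∫ x in K, r (g x) ^ n) := by
  classical
  have hC : ∀ j, MeasurableSet {x : E n | g x = j} := fun j => hg (measurableSet_singleton j)
  have hsub : {y | gauge K y ≤ r (g y)} ⊆
      ⋃ j ∈ Finset.range (N + 1), r j • (K ∩ {x | g x = j}) := by
    intro y hy
    simp only [mem_iUnion, Finset.mem_range]
    refine ⟨g y, Nat.lt_succ_of_le (hN y), (r (g y))⁻¹ • y, ⟨?_, ?_⟩, smul_inv_smul₀ (hr _).ne' y⟩
    · rw [← mem_smul_set_iff_inv_smul_mem₀ (hr _).ne']
      exact (Fisher.gauge_le_iff hK h0 (hr _) y).1 hy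
    · exact hgh _ (inv_pos.2 (hr _)) y
  have hint : IntegrableOn (fun x => r (g x) ^ n) K := by
    refine Measure.integrableOn_of_bounded (M := ∑ j ∈ Finset.range (N + 1), r j ^ n)
      hK.compact.measure_lt_top.ne ?_ (ae_of_all _ fun x => ?_)
    · exact ((measurable_of_countable fun j => r j ^ n).comp hg).aestronglyMeasurable
    · rw [Real.norm_eq_abs, abs_of_pos (pow_pos (hr _) n)]
      exact Finset.single_le_sum (fun j _ => (pow_pos (hr j) n).le)
        (Finset.mem_range.2 (Nat.lt_succ_of_le (hN x)))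
  have hcover : K = ⋃ j ∈ Finset.range (N + 1), K ∩ {x | g x = j} := by
    ext x
    simp only [mem_iUnion, Finset.mem_range, mem_inter_iff, mem_ofPred_eq]
    exact ⟨fun h => ⟨g x, Nat.lt_succ_of_le (hN x), h, rfl⟩, fun ⟨_, _, h, _⟩ => h⟩
  have hmeas : ∀ j, MeasurableSet (K ∩ {x | g x = j}) := fun j =>
    hK.compact.isClosed.measurableSet.inter (hC j)
  have hsplit : ∫ x in K, r (g x) ^ n =
      ∑ j ∈ Finset.range (N + 1), r j ^ n * (volume (K ∩ {x | g x = j})).toReal := by
    conv_lhs => rw [hcover]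
    rw [integral_biUnion_finset _ (fun j _ => hmeas j)
      (fun i _ j _ hij => Set.disjoint_left.2 fun x hx hx' => hij (hx.2.symm.trans hx'.2))
      (fun j _ => hint.mono_set inter_subset_left)]
    refine Finset.sum_congr rfl fun j _ => ?_
    rw [setIntegral_congr_fun (g := fun _ => r j ^ n) (hmeas j)
      (fun x hx => by simp only [show g x = j from hx.2]), setIntegral_const, smul_eq_mul, mul_comm]
    rfl
  refine (measure_mono hsub).trans ((measure_biUnion_finset_le _ _).trans ?_)
  rw [hsplit, ENNReal.ofReal_sum_of_nonneg fun j _ =>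
    mul_nonneg (pow_pos (hr j) n).le ENNReal.toReal_nonneg]
  refine Finset.sum_le_sum fun j _ => ?_
  rw [Measure.addHaar_smul, finrank_euclideanSpace_fin, abs_of_pos (pow_pos (hr j) n),
    ENNReal.ofReal_mul (pow_pos (hr j) n).le,
    ENNReal.ofReal_toReal
      (measure_ne_top_of_subset inter_subset_left hK.compact.measure_lt_top.ne)]

/-- The body `K + ε M` is inside the star set `w ≤ 1 + ε h_M(∇ w)` up to a null set. -/
lemma add_smul_subset_ae (hK : Body K) (h0 : (0 : E n) ∈ interior K) (hM : IsCompact M) {ε : ℝ}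
    (hε : 0 ≤ ε) :
    (K + ε • M : Set (E n)) ≤ᵐ[volume] {y | gauge K y ≤ 1 + ε * normalSupp K M y} := by
  obtain ⟨L, hL⟩ := hK.convex.lipschitz_gauge (Fisher.nhds_zero h0)
  filter_upwards [hL.ae_differentiableAt (μ := volume)] with y hd hy
  obtain ⟨k, hk, _, ⟨m, hm, rfl⟩, rfl⟩ := hy
  show gauge K _ ≤ _
  have h1 := gauge_sub_ge hK h0 hd (ε • m)
  rw [add_sub_cancel_right, map_smul, smul_eq_mul] at h1
  have h2 := gauge_le_one_of_mem hk
  have h3 := mul_le_mul_of_nonneg_left (le_suppD hM (fderiv ℝ (gauge K) (k + ε • m)) hm) hε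
  unfold normalSupp
  linarith

lemma pow_add_le {a q : ℝ} (ha : 0 ≤ a) (hq : 0 ≤ q) (k : ℕ) :
    a ^ k + k * q * a ^ (k - 1) ≤ (a + q) ^ k := by
  rcases k with _ | k
  · simp
  induction k with
  | zero => simp
  | succ j ih =>
    have h := mul_le_mul_of_nonneg_right ih (add_nonneg ha hq)
    rw [← pow_succ] at h
    simp only [Nat.succ_sub_succ, Nat.sub_zero] at h ⊢
    push_cast at h ⊢
    have : (0 : ℝ) ≤ (j + 1) * q * q * a ^ j := by positivity
    simp only [pow_succ] at h ⊢
    nlinarith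

lemma pow_one_add_sub_le {X : ℝ} (hX : 0 ≤ X) (k : ℕ) :
    (1 + X) ^ k - 1 ≤ k * (1 + X) ^ (k - 1) * X := by
  induction k with
  | zero => simp
  | succ j ih =>
    have h := mul_le_mul_of_nonneg_right ih (by linarith : (0 : ℝ) ≤ 1 + X)
    simp only [Nat.succ_sub_succ, Nat.sub_zero]
    rcases j with _ | i
    · simp
    simp only [Nat.succ_sub_succ, Nat.sub_zero] at h
    push_cast at h ⊢
    have h2 : 1 ≤ (1 + X) ^ (i + 1) := one_le_pow₀ (by linarith)
    simp only [pow_succ] at h h2 ⊢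
    nlinarith

/-- Minkowski's first inequality for the cone measure of `K`. -/
theorem minkowski_first (hn : 1 ≤ n) (hK : Body K) (h0 : (0 : E n) ∈ interior K)
    (hMc : Convex ℝ M) (hM : IsCompact M) (hM0 : (0 : E n) ∈ M) :
    vol M ^ (1 / (n : ℝ)) * (vol K ^ (1 / (n : ℝ))) ^ (n - 1) ≤
      ∫ x in K, normalSupp K M x := by
  set F := normalSupp K M with hF
  obtain ⟨B, hB0, hB⟩ := exists_bound_normalSupp hK h0 hM hM0
  have hFm : Measurable F := measurable_normalSupp hM ⟨0, hM0⟩
  have hFi : IntegrableOn F K := Fisher.integrableOn_of_bdd hK.compact hFm (M := B)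
    fun x _ => abs_le.2 ⟨by linarith [(hB x).1], (hB x).2⟩
  set a := vol K ^ (1 / (n : ℝ)) with ha
  set b := vol M ^ (1 / (n : ℝ)) with hb
  have ha0 : 0 ≤ a := Real.rpow_nonneg (vol_nonneg K) _
  have hb0 : 0 ≤ b := Real.rpow_nonneg (vol_nonneg M) _
  have hn0 : (n : ℝ) ≠ 0 := by positivity
  have hroot : ∀ v : ℝ, 0 ≤ v → (v ^ (1 / (n : ℝ))) ^ n = v := fun v hv => by
    rw [one_div, Real.rpow_inv_natCast_pow hv (by omega)]
  refine le_of_forall_pos_le_add fun η hη => ?_
  -- the discretisation step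
  obtain ⟨δ, hδ, hδη⟩ : ∃ δ, 0 < δ ∧ δ * vol K ≤ η / 2 :=
    ⟨η / 2 / (vol K + 1), by have := vol_nonneg K; positivity, by
      rw [div_mul_eq_mul_div, div_le_iff₀ (by have := vol_nonneg K; positivity)]
      nlinarith [vol_nonneg K]⟩
  set g : E n → ℕ := fun x => ⌊F x / δ⌋₊ + 1 with hg
  set N : ℕ := ⌊B / δ⌋₊ + 1 with hN
  have hgm : Measurable g := (Nat.measurable_floor.comp (hFm.div_const δ)).add_const 1
  have hgh : ∀ c : ℝ, 0 < c → ∀ x, g (c • x) = g x := fun c hc x => by
    simp only [hg, hF, normalSupp_smul hc x]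
  have hgN : ∀ x, g x ≤ N := fun x => by
    simp only [hg, hN, add_le_add_iff_right]
    exact Nat.floor_le_floor ((div_le_div_iff_of_pos_right hδ).2 (hB x).2)
  have hgF : ∀ x, F x ≤ δ * g x := fun x => by
    have := Nat.lt_floor_add_one (F x / δ)
    rw [div_lt_iff₀ hδ] at this
    simp only [hg, Nat.cast_add, Nat.cast_one]
    linarith
  have hgF' : ∀ x, δ * g x ≤ F x + δ := fun x => by
    have := Nat.floor_le (div_nonneg (hB x).1 hδ.le)
    rw [le_div_iff₀ hδ] at this
    simp only [hg, Nat.cast_add, Nat.cast_one]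
    linarith
  -- the bound for each `ε`
  have key : ∀ ε : ℝ, 0 < ε →
      n * (b * a ^ (n - 1)) ≤
        n * (1 + ε * (B + δ)) ^ (n - 1) * ((∫ x in K, F x) + η / 2) := by
    intro ε hε
    have hεne : ε ≠ 0 := hε.ne'
    have hcont : IsCompact (ε • M) := hM.smul ε
    have hbm := bmSpec n K (ε • M) (by omega) hK.convex hK.compact hK.nonempty (hMc.smul ε) hcont
      ⟨ε • 0, 0, hM0, rfl⟩
    have hvε : vol (ε • M) ^ (1 / (n : ℝ)) = ε * b := by
      rw [vol_smul, abs_of_pos hε, Real.mul_rpow (pow_nonneg hε.le n) (vol_nonneg M), one_div,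
        Real.pow_rpow_inv_natCast hε.le (by omega), hb, one_div]
    rw [hvε] at hbm
    have hlow : (a + ε * b) ^ n ≤ vol (K + ε • M) := by
      refine (pow_le_pow_left₀ (by positivity) hbm n).trans_eq (hroot _ (vol_nonneg _))
    have hpb : a ^ n + n * (ε * b) * a ^ (n - 1) ≤ (a + ε * b) ^ n :=
      pow_add_le ha0 (by positivity) n
    have hint : IntegrableOn (fun x => (1 + ε * (δ * g x)) ^ n) K := by
      refine Fisher.integrableOn_of_bdd hK.compact (M := (1 + ε * (δ * N)) ^ n)
        ((measurable_of_countable fun j : ℕ => (1 + ε * (δ * (j : ℝ))) ^ n).comp hgm) fun x _ => ?_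
      rw [abs_of_nonneg (by positivity)]
      gcongr
      exact_mod_cast hgN x
    have hup : vol (K + ε • M) ≤ ∫ x in K, (1 + ε * (δ * g x)) ^ n := by
      refine ENNReal.toReal_le_of_le_ofReal
        (setIntegral_nonneg hK.compact.isClosed.measurableSet fun x _ => by positivity) ?_
      refine (measure_mono_ae (add_smul_subset_ae hK h0 hM hε.le)).trans
        ((measure_mono fun y (hy : gauge K y ≤ 1 + ε * F y) => ?_).trans
          (vol_star_le hK h0 hgm hgh hgN (r := fun j : ℕ => 1 + ε * (δ * j))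
            fun j => by positivity))
      show gauge K y ≤ 1 + ε * (δ * g y)
      exact hy.trans (by gcongr; exact hgF y)
    have hpt : ∀ x, (1 + ε * (δ * g x)) ^ n - 1 ≤
        n * (1 + ε * (B + δ)) ^ (n - 1) * (ε * (F x + δ)) := fun x => by
      have hX0 : 0 ≤ ε * (δ * g x) := by positivity
      have h1 : (1 + ε * (δ * g x)) ^ n - 1 ≤
          n * (1 + ε * (δ * g x)) ^ (n - 1) * (ε * (δ * g x)) := by
        linarith [pow_one_add_sub_le hX0 n]
      refine h1.trans ?_
      gcongr
      · linarith [hgF' x, (hB x).2]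
      · exact hgF' x
    have hI : ∫ x in K, ((1 + ε * (δ * g x)) ^ n - 1) ≤
        n * (1 + ε * (B + δ)) ^ (n - 1) * (ε * ((∫ x in K, F x) + δ * vol K)) := by
      refine (setIntegral_mono_on (hint.sub (integrableOn_const hK.compact.measure_lt_top.ne))
        (((hFi.add (integrableOn_const hK.compact.measure_lt_top.ne)).const_mul ε).const_mul _)
        hK.compact.isClosed.measurableSet fun x _ => hpt x).trans_eq ?_
      rw [integral_const_mul, integral_const_mul]
      congr 2
      show ∫ x in K, (F x + δ) = _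
      rw [integral_add hFi (integrableOn_const hK.compact.measure_lt_top.ne), setIntegral_const,
        smul_eq_mul]
      simp [vol, Measure.real, mul_comm]
    rw [integral_sub hint (integrableOn_const hK.compact.measure_lt_top.ne), setIntegral_const,
      smul_eq_mul, mul_one] at hI
    have haK : a ^ n = vol K := hroot _ (vol_nonneg K)
    have hvK : volume.real K = vol K := rfl
    have hC : 0 ≤ n * (1 + ε * (B + δ)) ^ (n - 1) := by positivity
    have : ε * (n * (b * a ^ (n - 1))) ≤
        ε * (n * (1 + ε * (B + δ)) ^ (n - 1) * ((∫ x in K, F x) + η / 2)) := by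
      have h2 := mul_le_mul_of_nonneg_left hδη (mul_nonneg hC hε.le)
      nlinarith
    exact le_of_mul_le_mul_left this hε
  have hlim : Tendsto (fun ε : ℝ => n * (1 + ε * (B + δ)) ^ (n - 1) * ((∫ x in K, F x) + η / 2))
      (𝓝[>] 0) (𝓝 (n * ((∫ x in K, F x) + η / 2))) := by
    have : Continuous fun ε : ℝ =>
        n * (1 + ε * (B + δ)) ^ (n - 1) * ((∫ x in K, F x) + η / 2) := by fun_prop
    simpa using (this.tendsto 0).mono_left nhdsWithin_le_nhds
  have := ge_of_tendsto hlim (by filter_upwards [self_mem_nhdsWithin] with ε hε using key ε hε)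
  have hnpos : (0 : ℝ) < n := by positivity
  have := le_of_mul_le_mul_left this hnpos
  linarith

end Vale.Agent.P237.Centroid
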